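import Vale.Agent.P247.H720.H.Nem

/-!
# The interface of the weighted Wiener algebras (all statements except the elliptic ones)
-/

namespace Vale.Agent.P247.H720

open H74

theorem wiener : H1_statement ∧ H2_statement ∧ H3_statement ∧ H3c_statement ∧ H4_statement ∧
    H5_statement ∧ H6_statement ∧ H7_statement ∧ H9_statement ∧ H12_statement ∧ H13_statement :=
  ⟨H1, H2, H3, H3c, H4, H5, H6, H7, H9, H12, H13⟩

end Vale.Agent.P247.H720
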