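import Vale.Agent.P247.H74.Wien

/-!
# Fourier coefficients of periodic functions on the plane
-/

open scoped ContDiff Topology
open Set MeasureTheory Filter Metric

noncomputable section

namespace Vale.Agent.P247.H720

open H74

/-! ## characters -/

lemma ch_zero (p : P2) : ch 0 p = 1 := by
  simp [ch]

lemma ch_add (n k : ℤ × ℤ) (p : P2) : ch (n + k) p = ch n p * ch k p := by
  unfold ch
  rw [← Complex.exp_add]
  congr 1
  simp only [Prod.fst_add, Prod.snd_add, Int.cast_add]
  ring

lemma ch_neg (n : ℤ × ℤ) (p : P2) : ch (-n) p = (starRingEnd ℂ) (ch n p) := by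
  unfold ch
  rw [← Complex.exp_conj]
  congr 1
  simp only [Prod.fst_neg, Prod.snd_neg, Int.cast_neg, map_mul, map_add, Complex.conj_ofReal,
    Complex.conj_I, map_ofNat, map_intCast]
  ring

lemma norm_ch (n : ℤ × ℤ) (p : P2) : ‖ch n p‖ = 1 := by
  have : ch n p = Complex.exp (((2 * Real.pi * ((n.1 : ℝ) * p.1 + (n.2 : ℝ) * p.2) : ℝ) : ℂ)
      * Complex.I) := by
    unfold ch
    congr 1
    push_cast
    ring
  rw [this, Complex.norm_exp_ofReal_mul_I]

lemma ch_per (n : ℤ × ℤ) : Per (ch n) := by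
  intro a b p
  have h : ch n (p.1 + a, p.2 + b) = ch n p * Complex.exp (((n.1 * a + n.2 * b : ℤ) : ℂ)
      * (2 * Real.pi * Complex.I)) := by
    unfold ch
    rw [← Complex.exp_add]
    congr 1
    push_cast
    ring
  rw [h, Complex.exp_int_mul_two_pi_mul_I, mul_one]

/-- the exponent as a continuous linear map -/
def chL (n : ℤ × ℤ) : P2 →L[ℝ] ℂ :=
  (2 * Real.pi * Complex.I * (n.1 : ℂ)) • (Complex.ofRealCLM.comp (ContinuousLinearMap.fst ℝ ℝ ℝ))
  + (2 * Real.pi * Complex.I * (n.2 : ℂ)) • (Complex.ofRealCLM.comp (ContinuousLinearMap.snd ℝ ℝ ℝ))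

lemma chL_apply (n : ℤ × ℤ) (p : P2) :
    chL n p = 2 * Real.pi * Complex.I * ((n.1 : ℂ) * (p.1 : ℂ) + (n.2 : ℂ) * (p.2 : ℂ)) := by
  simp only [chL, ContinuousLinearMap.add_apply, ContinuousLinearMap.smul_apply,
    ContinuousLinearMap.comp_apply, ContinuousLinearMap.coe_fst', ContinuousLinearMap.coe_snd',
    Complex.ofRealCLM_apply, smul_eq_mul]
  ring

lemma ch_eq (n : ℤ × ℤ) (p : P2) : ch n p = Complex.exp (chL n p) := by
  rw [chL_apply]; rfl

lemma ch_smooth (n : ℤ × ℤ) : ContDiff ℝ ∞ (ch n) := by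
  have : ch n = fun p => Complex.exp (chL n p) := funext (ch_eq n)
  rw [this]
  exact Complex.contDiff_exp.comp (chL n).contDiff

lemma ch_continuous (n : ℤ × ℤ) : Continuous (ch n) := (ch_smooth n).continuous

lemma hasFDerivAt_ch (n : ℤ × ℤ) (p : P2) :
    HasFDerivAt (ch n) (ch n p • chL n) p := by
  have h1 : HasFDerivAt (fun p => Complex.exp (chL n p)) (Complex.exp (chL n p) • chL n) p :=
    (chL n).hasFDerivAt.cexp
  have : ch n = fun p => Complex.exp (chL n p) := funext (ch_eq n)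
  rw [this]
  exact h1

lemma ds_ch (n : ℤ × ℤ) (p : P2) : ds (ch n) p = 2 * Real.pi * Complex.I * n.1 * ch n p := by
  unfold ds
  rw [(hasFDerivAt_ch n p).fderiv, ContinuousLinearMap.smul_apply, chL_apply, smul_eq_mul]
  simp only [Complex.ofReal_one, Complex.ofReal_zero]
  ring

lemma dt_ch (n : ℤ × ℤ) (p : P2) : dt (ch n) p = 2 * Real.pi * Complex.I * n.2 * ch n p := by
  unfold dt
  rw [(hasFDerivAt_ch n p).fderiv, ContinuousLinearMap.smul_apply, chL_apply, smul_eq_mul]
  simp only [Complex.ofReal_one, Complex.ofReal_zero]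
  ring

/-! ## the mean -/

section Mean

variable {E : Type*} [NormedAddCommGroup E] [NormedSpace ℝ E]

lemma isCompact_sq : IsCompact (Icc (0 : P2) 1) := isCompact_Icc

lemma sq_eq : Icc (0 : P2) 1 = Icc (0 : ℝ) 1 ×ˢ Icc (0 : ℝ) 1 := (Icc_prod_Icc _ _ _ _).symm

lemma integrableOn_sq {g : P2 → E} (hg : Continuous g) : IntegrableOn g (Icc (0 : P2) 1) :=
  hg.continuousOn.integrableOn_compact isCompact_sq

lemma volume_sq : volume.real (Icc (0 : P2) 1) = 1 := by
  rw [sq_eq, Measure.volume_eq_prod, Measure.real, Measure.prod_prod]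
  simp [Real.volume_Icc]

lemma mean_add {g h : P2 → E} (hg : Continuous g) (hh : Continuous h) :
    mean (fun p => g p + h p) = mean g + mean h :=
  integral_add (integrableOn_sq hg) (integrableOn_sq hh)

lemma mean_sub {g h : P2 → E} (hg : Continuous g) (hh : Continuous h) :
    mean (fun p => g p - h p) = mean g - mean h :=
  integral_sub (integrableOn_sq hg) (integrableOn_sq hh)

lemma mean_smul {𝕜 : Type*} [NormedDivisionRing 𝕜] [Module 𝕜 E] [NormSMulClass 𝕜 E]
    [SMulCommClass ℝ 𝕜 E] (c : 𝕜) (g : P2 → E) :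
    mean (fun p => c • g p) = c • mean g := by
  unfold mean
  exact integral_smul c g

lemma mean_mul_left (c : ℂ) (g : P2 → ℂ) : mean (fun p => c * g p) = c * mean g :=
  integral_const_mul c g

lemma mean_sum {ι : Type*} (S : Finset ι) {g : ι → P2 → E} (hg : ∀ i ∈ S, Continuous (g i)) :
    mean (fun p => ∑ i ∈ S, g i p) = ∑ i ∈ S, mean (g i) :=
  integral_finset_sum S fun i hi => integrableOn_sq (hg i hi)

lemma mean_const (c : E) [CompleteSpace E] : mean (fun _ => c) = c := by
  unfold mean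
  rw [setIntegral_const, volume_sq, one_smul]

lemma norm_mean_le {g : P2 → E} {B : ℝ} (hg : ∀ p, ‖g p‖ ≤ B) : ‖mean g‖ ≤ B := by
  have h := norm_setIntegral_le_of_norm_le_const (μ := (volume : Measure P2)) (s := Icc (0 : P2) 1)
    (f := g) (C := B) (isCompact_sq.measure_lt_top) fun p _ => hg p
  rwa [volume_sq, mul_one] at h

lemma mean_mono {g h : P2 → ℝ} (hg : Continuous g) (hh : Continuous h) (hle : ∀ p, g p ≤ h p) :
    mean g ≤ mean h :=
  setIntegral_mono (integrableOn_sq hg) (integrableOn_sq hh) hle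

lemma mean_eq_iterated {g : P2 → E} (hg : Continuous g) :
    mean g = ∫ s in (0 : ℝ)..1, ∫ t in (0 : ℝ)..1, g (s, t) := by
  unfold mean
  have h1 := integrableOn_sq hg
  rw [sq_eq, Measure.volume_eq_prod] at h1 ⊢
  rw [setIntegral_prod _ h1, integral_Icc_eq_integral_Ioc,
    intervalIntegral.integral_of_le zero_le_one]
  refine setIntegral_congr_fun measurableSet_Ioc fun s _ => ?_
  rw [integral_Icc_eq_integral_Ioc, intervalIntegral.integral_of_le zero_le_one]

lemma mean_eq_iterated' {g : P2 → E} (hg : Continuous g) :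
    mean g = ∫ t in (0 : ℝ)..1, ∫ s in (0 : ℝ)..1, g (s, t) := by
  rw [mean_eq_iterated hg]
  refine intervalIntegral_intervalIntegral_swap (F := fun s t => g (s, t)) ?_
  have h1 := integrableOn_sq hg
  refine h1.mono_set ?_
  rw [sq_eq, uIoc_of_le zero_le_one]
  exact prod_mono Ioc_subset_Icc_self Ioc_subset_Icc_self

lemma Per.s {g : P2 → E} (hg : Per g) (s t : ℝ) : g (s + 1, t) = g (s, t) := by
  have := hg 1 0 (s, t)
  simpa using this

lemma Per.t {g : P2 → E} (hg : Per g) (s t : ℝ) : g (s, t + 1) = g (s, t) := by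
  have := hg 0 1 (s, t)
  simpa using this

lemma hasDerivAt_s {g : P2 → E} (hg : ContDiff ℝ 1 g) (s t : ℝ) :
    HasDerivAt (fun s => g (s, t)) (ds g (s, t)) s := by
  have h1 : HasFDerivAt g (fderiv ℝ g (s, t)) (s, t) :=
    (hg.differentiable one_ne_zero _).hasFDerivAt
  have h2 : HasDerivAt (fun s : ℝ => ((s, t) : P2)) (1, 0) s :=
    (hasDerivAt_id s).prodMk (hasDerivAt_const s t)
  exact h1.comp_hasDerivAt s h2

lemma hasDerivAt_t {g : P2 → E} (hg : ContDiff ℝ 1 g) (s t : ℝ) :
    HasDerivAt (fun t => g (s, t)) (dt g (s, t)) t := by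
  have h1 : HasFDerivAt g (fderiv ℝ g (s, t)) (s, t) :=
    (hg.differentiable one_ne_zero _).hasFDerivAt
  have h2 : HasDerivAt (fun t : ℝ => ((s, t) : P2)) (0, 1) t :=
    (hasDerivAt_const t s).prodMk (hasDerivAt_id t)
  exact h1.comp_hasDerivAt t h2

lemma contDiff_ds {g : P2 → E} {n : ℕ∞} (hg : ContDiff ℝ (n + 1 : ℕ∞) g) : ContDiff ℝ n (ds g) := by
  unfold ds
  exact (hg.fderiv_right (m := (n : WithTop ℕ∞)) (by norm_cast)).clm_apply contDiff_const

lemma contDiff_dt {g : P2 → E} {n : ℕ∞} (hg : ContDiff ℝ (n + 1 : ℕ∞) g) : ContDiff ℝ n (dt g) := by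
  unfold dt
  exact (hg.fderiv_right (m := (n : WithTop ℕ∞)) (by norm_cast)).clm_apply contDiff_const

lemma continuous_ds {g : P2 → E} (hg : ContDiff ℝ 1 g) : Continuous (ds g) :=
  (contDiff_ds (n := 0) hg).continuous

lemma continuous_dt {g : P2 → E} (hg : ContDiff ℝ 1 g) : Continuous (dt g) :=
  (contDiff_dt (n := 0) hg).continuous

lemma per_fderiv {g : P2 → E} (hg : Per g) : Per (fderiv ℝ g) := by
  intro m n p
  have h1 : g = fun q : P2 => g (q + ((m : ℝ), (n : ℝ))) := by
    funext q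
    exact (hg m n q).symm
  have h2 : fderiv ℝ g p = fderiv ℝ (fun q : P2 => g (q + ((m : ℝ), (n : ℝ)))) p := by
    rw [← h1]
  rw [h2, fderiv_comp_add_right]
  rfl

lemma per_ds {g : P2 → E} (hg : Per g) : Per (ds g) := by
  intro m n p
  unfold ds
  rw [per_fderiv hg m n p]

lemma per_dt {g : P2 → E} (hg : Per g) : Per (dt g) := by
  intro m n p
  unfold dt
  rw [per_fderiv hg m n p]

lemma mean_ds [CompleteSpace E] {g : P2 → E} (hg : ContDiff ℝ 1 g) (hp : Per g) :
    mean (ds g) = 0 := by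
  rw [mean_eq_iterated' (continuous_ds hg)]
  have : ∀ t : ℝ, ∫ s in (0 : ℝ)..1, ds g (s, t) = 0 := by
    intro t
    rw [intervalIntegral.integral_eq_sub_of_hasDerivAt (f := fun s => g (s, t))
      (fun s _ => hasDerivAt_s hg s t)
      (((continuous_ds hg).comp (by fun_prop)).intervalIntegrable _ _)]
    have := Per.s hp 0 t
    rw [zero_add] at this
    rw [this, sub_self]
  simp only [this, intervalIntegral.integral_zero]

lemma mean_dt [CompleteSpace E] {g : P2 → E} (hg : ContDiff ℝ 1 g) (hp : Per g) :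
    mean (dt g) = 0 := by
  rw [mean_eq_iterated (continuous_dt hg)]
  have : ∀ s : ℝ, ∫ t in (0 : ℝ)..1, dt g (s, t) = 0 := by
    intro s
    rw [intervalIntegral.integral_eq_sub_of_hasDerivAt (f := fun t => g (s, t))
      (fun t _ => hasDerivAt_t hg s t)
      (((continuous_dt hg).comp (by fun_prop)).intervalIntegrable _ _)]
    have := Per.t hp s 0
    rw [zero_add] at this
    rw [this, sub_self]
  simp only [this, intervalIntegral.integral_zero]

end Mean

lemma mean_ch (n : ℤ × ℤ) : mean (ch n) = if n = 0 then 1 else 0 := by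
  split_ifs with h
  · subst h
    have : ch 0 = fun _ => (1 : ℂ) := funext ch_zero
    rw [this, mean_const]
  · have h1 : mean (ds (ch n)) = 0 := mean_ds ((ch_smooth n).of_le (by norm_cast))
      (ch_per n)
    have h2 : mean (dt (ch n)) = 0 := mean_dt ((ch_smooth n).of_le (by norm_cast))
      (ch_per n)
    rw [show ds (ch n) = fun p => 2 * Real.pi * Complex.I * n.1 * ch n p from
      funext (ds_ch n), mean_mul_left] at h1
    rw [show dt (ch n) = fun p => 2 * Real.pi * Complex.I * n.2 * ch n p from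
      funext (dt_ch n), mean_mul_left] at h2
    have hpi : (2 * Real.pi * Complex.I : ℂ) ≠ 0 := by
      simp [Real.pi_ne_zero]
    rcases mul_eq_zero.1 h1 with h1 | h1
    · rcases mul_eq_zero.1 h2 with h2 | h2
      · exfalso
        apply h
        refine Prod.ext ?_ ?_
        · exact_mod_cast (mul_eq_zero.1 h1).resolve_left hpi
        · exact_mod_cast (mul_eq_zero.1 h2).resolve_left hpi
      · exact h2
    · exact h1

/-! ## Fourier coefficients -/

/-- Fourier coefficient of a function -/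
def fc (u : P2 → ℂ) (n : ℤ × ℤ) : ℂ := mean fun p => u p * ch (-n) p

lemma cmul {u v : P2 → ℂ} (hu : Continuous u) (hv : Continuous v) :
    Continuous (fun p => u p * v p) := hu.mul hv

lemma cchm {u : P2 → ℂ} (hu : Continuous u) (n : ℤ × ℤ) :
    Continuous (fun p => u p * ch (-n) p) := hu.mul (ch_continuous _)

lemma ccm {u : P2 → ℂ} (c : ℂ) (hu : Continuous u) :
    Continuous (fun p => c * u p) := continuous_const.mul hu

lemma norm_fc_le {u : P2 → ℂ} {B : ℝ} (h : ∀ p, ‖u p‖ ≤ B) (n : ℤ × ℤ) : ‖fc u n‖ ≤ B := by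
  refine norm_mean_le fun p => ?_
  rw [norm_mul, norm_ch, mul_one]
  exact h p

lemma fc_add {u v : P2 → ℂ} (hu : Continuous u) (hv : Continuous v) (n : ℤ × ℤ) :
    fc (fun p => u p + v p) n = fc u n + fc v n := by
  unfold fc
  rw [← mean_add (cchm hu n) (cchm hv n)]
  simp only [add_mul]

lemma fc_sub {u v : P2 → ℂ} (hu : Continuous u) (hv : Continuous v) (n : ℤ × ℤ) :
    fc (fun p => u p - v p) n = fc u n - fc v n := by
  unfold fc
  rw [← mean_sub (cchm hu n) (cchm hv n)]
  simp only [sub_mul]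

lemma fc_mul_left (c : ℂ) (u : P2 → ℂ) (n : ℤ × ℤ) :
    fc (fun p => c * u p) n = c * fc u n := by
  unfold fc
  rw [← mean_mul_left]
  simp only [mul_assoc]

lemma fc_ch (k n : ℤ × ℤ) : fc (ch k) n = if k = n then 1 else 0 := by
  unfold fc
  have : (fun p => ch k p * ch (-n) p) = ch (k + -n) := by
    funext p
    rw [ch_add]
  rw [this, mean_ch]
  congr 1
  rw [← sub_eq_add_neg, sub_eq_zero]

lemma fc_ds {u : P2 → ℂ} (hu : ContDiff ℝ 1 u) (hp : Per u) (n : ℤ × ℤ) :
    fc (ds u) n = 2 * Real.pi * Complex.I * n.1 * fc u n := by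
  have h1 : ContDiff ℝ 1 (fun p => u p * ch (-n) p) :=
    hu.mul ((ch_smooth _).of_le (by norm_cast))
  have h2 : Per (fun p => u p * ch (-n) p) := fun a b p => by
    simp only [hp a b p, ch_per (-n) a b p]
  have h3 := mean_ds h1 h2
  have h4 : ds (fun p => u p * ch (-n) p) = fun p => ds u p * ch (-n) p
      - 2 * Real.pi * Complex.I * n.1 * (u p * ch (-n) p) := by
    funext p
    have e := ((hu.differentiable one_ne_zero p).hasFDerivAt.mul
      ((((ch_smooth (-n)).differentiable (by norm_cast)) p).hasFDerivAt)).fderiv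
    have e2 := ds_ch (-n) p
    unfold ds at e2 ⊢
    have e3 : fderiv ℝ (fun p => u p * ch (-n) p) p = u p • fderiv ℝ (ch (-n)) p
      + ch (-n) p • fderiv ℝ u p := e
    rw [e3, ContinuousLinearMap.add_apply, ContinuousLinearMap.smul_apply,
      ContinuousLinearMap.smul_apply, e2, smul_eq_mul, smul_eq_mul]
    simp only [Prod.fst_neg, Int.cast_neg]
    ring
  rw [h4, mean_sub (cchm (continuous_ds hu) n) (ccm _ (cchm hu.continuous n)), mean_mul_left,
    sub_eq_zero] at h3
  exact h3

lemma fc_dt {u : P2 → ℂ} (hu : ContDiff ℝ 1 u) (hp : Per u) (n : ℤ × ℤ) :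
    fc (dt u) n = 2 * Real.pi * Complex.I * n.2 * fc u n := by
  have h1 : ContDiff ℝ 1 (fun p => u p * ch (-n) p) :=
    hu.mul ((ch_smooth _).of_le (by norm_cast))
  have h2 : Per (fun p => u p * ch (-n) p) := fun a b p => by
    simp only [hp a b p, ch_per (-n) a b p]
  have h3 := mean_dt h1 h2
  have h4 : dt (fun p => u p * ch (-n) p) = fun p => dt u p * ch (-n) p
      - 2 * Real.pi * Complex.I * n.2 * (u p * ch (-n) p) := by
    funext p
    have e := ((hu.differentiable one_ne_zero p).hasFDerivAt.mul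
      ((((ch_smooth (-n)).differentiable (by norm_cast)) p).hasFDerivAt)).fderiv
    have e2 := dt_ch (-n) p
    unfold dt at e2 ⊢
    have e3 : fderiv ℝ (fun p => u p * ch (-n) p) p = u p • fderiv ℝ (ch (-n)) p
      + ch (-n) p • fderiv ℝ u p := e
    rw [e3, ContinuousLinearMap.add_apply, ContinuousLinearMap.smul_apply,
      ContinuousLinearMap.smul_apply, e2, smul_eq_mul, smul_eq_mul]
    simp only [Prod.snd_neg, Int.cast_neg]
    ring
  rw [h4, mean_sub (cchm (continuous_dt hu) n) (ccm _ (cchm hu.continuous n)), mean_mul_left,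
    sub_eq_zero] at h3
  exact h3

/-! ## uniqueness -/

/-- one variable -/
lemma eq_zero_of_coeff_one {u : ℝ → ℂ} (hu : Continuous u) (hp : ∀ x, u (x + 1) = u x)
    (h : ∀ n : ℤ, ∫ x in (0 : ℝ)..1, u x * Complex.exp (-(2 * Real.pi * Complex.I * n * x)) = 0) :
    u = 0 := by
  haveI : Fact ((0 : ℝ) < 1) := ⟨one_pos⟩
  have hper : Function.Periodic u 1 := hp
  let f : C(AddCircle (1 : ℝ), ℂ) := ⟨hper.lift, by
    rw [continuous_coinduced_dom]
    exact hu⟩
  have hf : ∀ x : ℝ, f (x : AddCircle (1 : ℝ)) = u x := fun x => rfl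
  have hc : ∀ n, fourierCoeff f n = 0 := by
    intro n
    rw [fourierCoeff_eq_intervalIntegral f n 0]
    have : ∫ x in (0 : ℝ)..0 + 1, fourier (-n) (x : AddCircle (1 : ℝ)) • f x
        = ∫ x in (0 : ℝ)..1, u x * Complex.exp (-(2 * Real.pi * Complex.I * n * x)) := by
      rw [zero_add]
      refine intervalIntegral.integral_congr fun x _ => ?_
      simp only [hf, fourier_coe_apply, smul_eq_mul]
      rw [mul_comm]
      congr 2
      push_cast
      ring
    rw [this, h n, smul_zero]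
  have hs : Summable (fourierCoeff f) := by
    have : fourierCoeff f = fun _ => 0 := funext hc
    rw [this]
    exact summable_zero
  funext x
  have h1 := has_pointwise_sum_fourier_series_of_summable hs (x : AddCircle (1 : ℝ))
  simp only [hc, zero_smul] at h1
  have h2 := h1.unique hasSum_zero
  rw [hf] at h2
  exact h2

lemma eq_zero_of_fc {u : P2 → ℂ} (hu : Continuous u) (hp : Per u) (h : ∀ n, fc u n = 0) :
    u = 0 := by
  have key : ∀ (n1 : ℤ) (s : ℝ), ∫ t in (0 : ℝ)..1, u (t, s)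
      * Complex.exp (-(2 * Real.pi * Complex.I * n1 * t)) = 0 := by
    intro n1
    have hc : Continuous (fun q : ℝ × ℝ => u (q.2, q.1)
        * Complex.exp (-(2 * Real.pi * Complex.I * n1 * q.2))) := by
      refine (hu.comp (by fun_prop)).mul ?_
      fun_prop
    have hc' : Continuous (fun s : ℝ => ∫ t in (0 : ℝ)..1, u (t, s)
        * Complex.exp (-(2 * Real.pi * Complex.I * n1 * t))) :=
      intervalIntegral.continuous_parametric_intervalIntegral_of_continuous' hc 0 1
    have h0 := eq_zero_of_coeff_one hc' (fun s => by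
      refine intervalIntegral.integral_congr fun t _ => ?_
      simp only [Per.t hp t s]) (fun n2 => by
      have h1 := h (n1, n2)
      unfold fc at h1
      rw [mean_eq_iterated' (cchm hu _)] at h1
      rw [← h1]
      refine intervalIntegral.integral_congr fun s _ => ?_
      rw [← intervalIntegral.integral_mul_const]
      refine intervalIntegral.integral_congr fun t _ => ?_
      rw [mul_assoc, ← Complex.exp_add]
      unfold ch
      congr 2
      simp only [Prod.fst_neg, Prod.snd_neg, Int.cast_neg]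
      ring)
    intro s
    exact congrFun h0 s
  funext p
  obtain ⟨s, t⟩ := p
  have h1 := eq_zero_of_coeff_one (u := fun s => u (s, t)) (hu.comp (by fun_prop))
    (fun s => Per.s hp s t) (fun n => key n t)
  exact congrFun h1 s

lemma eq_of_fc {u v : P2 → ℂ} (hu : Continuous u) (hp : Per u) (hv : Continuous v) (hq : Per v)
    (h : ∀ n, fc u n = fc v n) : u = v := by
  have h1 := eq_zero_of_fc (u := fun p => u p - v p) (hu.sub hv) (fun a b p => by
    simp only [hp a b p, hq a b p]) (fun n => by rw [fc_sub hu hv, h n, sub_self])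
  funext p
  exact sub_eq_zero.1 (congrFun h1 p)

/-! ## Bessel -/

lemma bessel {u : P2 → ℂ} (hu : Continuous u) (S : Finset (ℤ × ℤ)) :
    ∑ n ∈ S, ‖fc u n‖ ^ 2 ≤ mean (fun p => ‖u p‖ ^ 2) := by
  classical
  let v : P2 → ℂ := fun p => ∑ n ∈ S, fc u n * ch n p
  have hv : Continuous v := continuous_finset_sum _ fun n _ => continuous_const.mul (ch_continuous n)
  have hpos : 0 ≤ mean (fun p => ‖u p - v p‖ ^ 2) :=
    setIntegral_nonneg measurableSet_Icc fun p _ => by positivity
  -- complex version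
  have hcv : ∀ w : P2 → ℂ, Continuous w → ((mean (fun p => ‖w p‖ ^ 2) : ℝ) : ℂ)
      = mean (fun p => w p * (starRingEnd ℂ) (w p)) := by
    intro w _
    unfold mean
    rw [← integral_complex_ofReal]
    refine integral_congr_ae (Eventually.of_forall fun p => ?_)
    simp only
    rw [Complex.mul_conj, Complex.normSq_eq_norm_sq]
  have huv : mean (fun p => u p * (starRingEnd ℂ) (v p)) = ((∑ n ∈ S, ‖fc u n‖ ^ 2 : ℝ) : ℂ) := by
    have : (fun p => u p * (starRingEnd ℂ) (v p))
        = fun p => ∑ n ∈ S, (starRingEnd ℂ) (fc u n) * (u p * ch (-n) p) := by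
      funext p
      simp only [v, map_sum, map_mul, Finset.mul_sum]
      refine Finset.sum_congr rfl fun n _ => ?_
      rw [ch_neg]
      ring
    rw [this, mean_sum S (g := fun n p => (starRingEnd ℂ) (fc u n) * (u p * ch (-n) p))
      fun n _ => ccm _ (cchm hu n)]
    push_cast
    refine Finset.sum_congr rfl fun n _ => ?_
    rw [mean_mul_left]
    change (starRingEnd ℂ) (fc u n) * fc u n = _
    rw [mul_comm, Complex.mul_conj, Complex.normSq_eq_norm_sq]
    push_cast
    rfl
  have hvu : mean (fun p => v p * (starRingEnd ℂ) (u p)) = ((∑ n ∈ S, ‖fc u n‖ ^ 2 : ℝ) : ℂ) := by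
    have h1 : mean (fun p => v p * (starRingEnd ℂ) (u p))
        = (starRingEnd ℂ) (mean (fun p => u p * (starRingEnd ℂ) (v p))) := by
      unfold mean
      rw [← integral_conj]
      refine integral_congr_ae (Eventually.of_forall fun p => ?_)
      simp only [map_mul, Complex.conj_conj]
      ring
    rw [h1, huv, Complex.conj_ofReal]
  have hvv : mean (fun p => v p * (starRingEnd ℂ) (v p)) = ((∑ n ∈ S, ‖fc u n‖ ^ 2 : ℝ) : ℂ) := by
    have : (fun p => v p * (starRingEnd ℂ) (v p))
        = fun p => ∑ n ∈ S, ∑ k ∈ S, (fc u n * (starRingEnd ℂ) (fc u k)) * ch (n - k) p := by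
      funext p
      simp only [v, map_sum, map_mul, Finset.mul_sum, Finset.sum_mul]
      rw [Finset.sum_comm]
      refine Finset.sum_congr rfl fun n _ => Finset.sum_congr rfl fun k _ => ?_
      rw [sub_eq_add_neg, ch_add, ch_neg]
      ring
    rw [this, mean_sum S
      (g := fun n p => ∑ k ∈ S, (fc u n * (starRingEnd ℂ) (fc u k)) * ch (n - k) p)
      fun n _ => continuous_finset_sum _ fun k _ => ccm _ (ch_continuous _)]
    push_cast
    refine Finset.sum_congr rfl fun n hn => ?_
    rw [mean_sum S (g := fun k p => (fc u n * (starRingEnd ℂ) (fc u k)) * ch (n - k) p)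
      fun k _ => ccm _ (ch_continuous _)]
    rw [Finset.sum_eq_single n]
    · rw [mean_mul_left, mean_ch, if_pos (sub_self n), mul_one, Complex.mul_conj,
        Complex.normSq_eq_norm_sq]
      push_cast
      rfl
    · intro k _ hk
      rw [mean_mul_left, mean_ch, if_neg (fun h => hk (sub_eq_zero.1 h).symm), mul_zero]
    · exact fun h => absurd hn h
  have hexp : ((mean (fun p => ‖u p - v p‖ ^ 2) : ℝ) : ℂ)
      = ((mean (fun p => ‖u p‖ ^ 2) - ∑ n ∈ S, ‖fc u n‖ ^ 2 : ℝ) : ℂ) := by
    have hcc : Continuous fun z : ℂ => (starRingEnd ℂ) z := Complex.continuous_conj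
    rw [hcv (fun p => u p - v p) (hu.sub hv)]
    have : (fun p => (u p - v p) * (starRingEnd ℂ) (u p - v p))
        = fun p => (u p * (starRingEnd ℂ) (u p) - u p * (starRingEnd ℂ) (v p))
          - (v p * (starRingEnd ℂ) (u p) - v p * (starRingEnd ℂ) (v p)) := by
      funext p
      simp only [map_sub]
      ring
    rw [this, mean_sub, mean_sub, mean_sub, huv, hvu, hvv, ← hcv u hu]
    · push_cast
      ring
    · exact hv.mul (hcc.comp hu)
    · exact hv.mul (hcc.comp hv)
    · exact hu.mul (hcc.comp hu)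
    · exact hu.mul (hcc.comp hv)
    · exact (hu.mul (hcc.comp hu)).sub (hu.mul (hcc.comp hv))
    · exact (hv.mul (hcc.comp hu)).sub (hv.mul (hcc.comp hv))
  have h3 := Complex.ofReal_injective hexp
  linarith

lemma sum_sq_fc_le {u : P2 → ℂ} (hu : Continuous u) {B : ℝ} (h : ∀ p, ‖u p‖ ≤ B)
    (S : Finset (ℤ × ℤ)) : ∑ n ∈ S, ‖fc u n‖ ^ 2 ≤ B ^ 2 := by
  refine (bessel hu S).trans ?_
  have hB : ∀ p, ‖(‖u p‖ ^ 2 : ℝ)‖ ≤ B ^ 2 := by
    intro p
    rw [Real.norm_of_nonneg (by positivity)]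
    exact pow_le_pow_left₀ (norm_nonneg _) (h p) 2
  exact (le_abs_self _).trans (norm_mean_le hB)

/-! ## weights -/

lemma one_le_wt (n : ℤ × ℤ) : 1 ≤ wt n := by
  unfold wt
  have := abs_nonneg (n.1 : ℝ)
  have := abs_nonneg (n.2 : ℝ)
  linarith

lemma wt_pos (n : ℤ × ℤ) : 0 < wt n := lt_of_lt_of_le one_pos (one_le_wt n)

lemma wt_neg (n : ℤ × ℤ) : wt (-n) = wt n := by
  simp [wt]

lemma wt_add_le (n k : ℤ × ℤ) : wt (n + k) ≤ wt n * wt k := by
  unfold wt
  simp only [Prod.fst_add, Prod.snd_add, Int.cast_add]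
  have h1 := abs_add_le (n.1 : ℝ) (k.1 : ℝ)
  have h2 := abs_add_le (n.2 : ℝ) (k.2 : ℝ)
  have h3 := abs_nonneg (n.1 : ℝ)
  have h4 := abs_nonneg (n.2 : ℝ)
  have h5 := abs_nonneg (k.1 : ℝ)
  have h6 := abs_nonneg (k.2 : ℝ)
  nlinarith [mul_nonneg h3 h5, mul_nonneg h3 h6, mul_nonneg h4 h5, mul_nonneg h4 h6]

lemma summable_wt : Summable fun n : ℤ × ℤ => (wt n ^ 4)⁻¹ := by
  have h1 : Summable fun n : ℤ => ((1 + |(n : ℝ)|) ^ 2)⁻¹ := by
    have h2 : Summable fun n : ℕ => ((1 + (n : ℝ)) ^ 2)⁻¹ := by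
      have h3 : Summable fun n : ℕ => (((n : ℝ)) ^ 2)⁻¹ := Real.summable_nat_pow_inv.2 one_lt_two
      have h4 := (summable_nat_add_iff 1).2 h3
      refine h4.congr fun n => ?_
      push_cast
      ring
    refine Summable.of_nat_of_neg ?_ ?_
    · refine h2.congr fun n => ?_
      simp
    · refine h2.congr fun n => ?_
      simp
  have h3 := h1.mul_of_nonneg h1 (fun n => by positivity) (fun n => by positivity)
  refine Summable.of_nonneg_of_le (fun n => by have := wt_pos n; positivity) (fun n => ?_) h3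
  rw [← mul_inv]
  refine inv_anti₀ (by positivity) ?_
  have h4 := abs_nonneg (n.1 : ℝ)
  have h5 := abs_nonneg (n.2 : ℝ)
  have h6 : (1 + |(n.1 : ℝ)|) * (1 + |(n.2 : ℝ)|) ≤ wt n ^ 2 := by
    unfold wt
    nlinarith [mul_nonneg h4 h5]
  calc (1 + |(n.1 : ℝ)|) ^ 2 * (1 + |(n.2 : ℝ)|) ^ 2
      = ((1 + |(n.1 : ℝ)|) * (1 + |(n.2 : ℝ)|)) ^ 2 := by ring
    _ ≤ (wt n ^ 2) ^ 2 := pow_le_pow_left₀ (by positivity) h6 2
    _ = wt n ^ 4 := by ring

end Vale.Agent.P247.H720
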