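import Vale.Agent.P247.H720.H.Sup
import Vale.Agent.P299.H800.Kir.Four

/-!
# Superposition operators are smooth
-/

open scoped ContDiff Topology
open Set MeasureTheory Filter Metric

noncomputable section

namespace Vale.Agent.P247.H720

open H74

variable {ι : Type} [Fintype ι] [DecidableEq ι]

open scoped Classical in
/-- the superposition operator -/
def nem (l : P2 →L[ℝ] (ι → ℝ)) (m : ℕ) (H : (ι → ℝ) → ℝ) (g : ι → WR m) : WR m :=
  if h : ∃ a : WR m, ev a = sup l H g then h.choose else 0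

lemma nem_spec (l : P2 →L[ℝ] (ι → ℝ)) (m : ℕ) {H : (ι → ℝ) → ℝ} (hH : ContDiff ℝ ∞ H)
    (hp : PerL l H) (g : ι → WR (m + 2)) : ev (nem l (m + 2) H g) = sup l H g := by
  obtain ⟨C, hC⟩ := exists_sup l m hH hp ‖g‖
  obtain ⟨a, ha, _⟩ := hC g le_rfl
  have h : ∃ a : WR (m + 2), ev a = sup l H g := ⟨a, ha⟩
  unfold nem
  rw [dif_pos h]
  exact h.choose_spec

lemma norm_nem_le (l : P2 →L[ℝ] (ι → ℝ)) (m : ℕ) {H : (ι → ℝ) → ℝ} (hH : ContDiff ℝ ∞ H)
    (hp : PerL l H) (R : ℝ) : ∃ C, 0 ≤ C ∧ ∀ g : ι → WR (m + 2), ‖g‖ ≤ R → ‖nem l (m + 2) H g‖ ≤ C := by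
  obtain ⟨C, hC⟩ := exists_sup l m hH hp R
  refine ⟨max C 0, le_max_right _ _, fun g hg => ?_⟩
  obtain ⟨a, ha, hb⟩ := hC g hg
  have h1 : nem l (m + 2) H g = a := H2 _ _ _ (by rw [nem_spec l m hH hp g, ha])
  rw [h1]
  exact hb.trans (le_max_left _ _)

/-! ## Taylor's formula with parameters -/

/-- the kernel of the remainder -/
def ker2 (F : (ι → ℝ) → ℝ) (i j : ι) (z : ι ⊕ ι → ℝ) : ℝ :=
  ∫ t in P299.H800.Kir.cube (0 : Fin 1 → ℝ),
    (1 - t 0) * pd j (pd i F) (fun k => z (Sum.inl k) + t 0 * z (Sum.inr k))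

lemma contDiff_ker2 {F : (ι → ℝ) → ℝ} (hF : ContDiff ℝ ∞ F) (i j : ι) :
    ContDiff ℝ ∞ (ker2 F i j) := by
  have h1 : ContDiff ℝ ∞ fun q : (Fin 1 → ℝ) × (ι ⊕ ι → ℝ) =>
      (1 - q.1 0) * pd j (pd i F) (fun k => q.2 (Sum.inl k) + q.1 0 * q.2 (Sum.inr k)) := by
    have h2 : ContDiff ℝ ∞ (pd j (pd i F)) := contDiff_pd (contDiff_pd hF i) j
    have h3 : ContDiff ℝ ∞ fun q : (Fin 1 → ℝ) × (ι ⊕ ι → ℝ) =>
        (fun k => q.2 (Sum.inl k) + q.1 0 * q.2 (Sum.inr k) : ι → ℝ) := by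
      refine contDiff_pi.2 fun k => ?_
      exact ((contDiff_apply ℝ ℝ (Sum.inl k)).comp contDiff_snd).add
        (((contDiff_apply ℝ ℝ (0 : Fin 1)).comp contDiff_fst).mul
          ((contDiff_apply ℝ ℝ (Sum.inr k)).comp contDiff_snd))
    exact (contDiff_const.sub ((contDiff_apply ℝ ℝ (0 : Fin 1)).comp contDiff_fst)).mul (h2.comp h3)
  have h4 := P299.H800.Kir.integral_cube_param (U := (univ : Set (ι ⊕ ι → ℝ))) isOpen_univ
    h1.contDiffOn (0 : Fin 1 → ℝ)
  exact contDiffOn_univ.1 h4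

/-- the lattice of the pair -/
def l2 (l : P2 →L[ℝ] (ι → ℝ)) : P2 →L[ℝ] (ι ⊕ ι → ℝ) :=
  ContinuousLinearMap.pi fun s => Sum.elim
    (fun i => (ContinuousLinearMap.proj (R := ℝ) (φ := fun _ : ι => ℝ) i).comp l) (fun _ => 0) s

lemma l2_inl (l : P2 →L[ℝ] (ι → ℝ)) (p : P2) (i : ι) : l2 l p (Sum.inl i) = l p i := rfl
lemma l2_inr (l : P2 →L[ℝ] (ι → ℝ)) (p : P2) (i : ι) : l2 l p (Sum.inr i) = 0 := rfl

lemma perL_ker2 {l : P2 →L[ℝ] (ι → ℝ)} {F : (ι → ℝ) → ℝ} (hp : PerL l F) (i j : ι) :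
    PerL (l2 l) (ker2 F i j) := by
  intro a b z
  unfold ker2
  refine integral_congr_ae (Eventually.of_forall fun t => ?_)
  simp only [Pi.add_apply, l2_inl, l2_inr, add_zero]
  have h1 := perL_pd (perL_pd hp i) j a b (fun k => z (Sum.inl k) + t 0 * z (Sum.inr k))
  rw [← h1]
  congr 2
  funext k
  simp only [Pi.add_apply]
  ring

lemma ker2_eq {F : (ι → ℝ) → ℝ} (i j : ι) (x y : ι → ℝ) :
    ker2 F i j (Sum.elim x y) = ∫ t in (0 : ℝ)..1, (1 - t) * pd j (pd i F) (x + t • y) := by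
  rw [intervalIntegral.integral_of_le zero_le_one]
  have h1 := (volume_preserving_funUnique (Fin 1) ℝ).setIntegral_preimage_emb
    (MeasurableEquiv.measurableEmbedding _)
    (fun t : ℝ => (1 - t) * pd j (pd i F) (x + t • y)) (Ioc 0 1)
  rw [← h1]
  unfold ker2
  have h2 : P299.H800.Kir.cube (0 : Fin 1 → ℝ)
      = (MeasurableEquiv.funUnique (Fin 1) ℝ) ⁻¹' Ioc 0 1 := by
    ext t
    unfold P299.H800.Kir.cube
    simp only [mem_setOf_eq, mem_preimage, Pi.zero_apply, zero_add]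
    constructor
    · intro h
      exact h default
    · intro h k
      rw [Subsingleton.elim k default]
      exact h
  rw [← h2]
  refine integral_congr_ae (Eventually.of_forall fun t => ?_)
  rfl

lemma taylor2 {F : (ι → ℝ) → ℝ} (hF : ContDiff ℝ ∞ F) (x y : ι → ℝ) :
    F (x + y) - F x - ∑ i, pd i F x * y i
      = ∑ i, ∑ j, y i * (y j * ker2 F i j (Sum.elim x y)) := by
  -- the path
  have hl : ∀ t : ℝ, HasDerivAt (fun t : ℝ => x + t • y) y t := fun t => by
    have := (hasDerivAt_id t).smul_const y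
    simpa using this.const_add x
  have hd : ∀ (G : (ι → ℝ) → ℝ), ContDiff ℝ ∞ G → ∀ t : ℝ,
      HasDerivAt (fun t : ℝ => G (x + t • y)) (∑ i, pd i G (x + t • y) * y i) t := by
    intro G hG t
    have h1 := ((hG.differentiable (by norm_num) (x + t • y)).hasFDerivAt).comp_hasDerivAt t (hl t)
    rwa [fderiv_eq_sum] at h1
  have h1 : ∀ t : ℝ, HasDerivAt (fun t : ℝ => (1 - t) * (∑ i, pd i F (x + t • y) * y i)
      + F (x + t • y)) (∑ i, ∑ j, y i * (y j * ((1 - t) * pd j (pd i F) (x + t • y)))) t := by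
    intro t
    have h2 : HasDerivAt (fun t : ℝ => ∑ i, pd i F (x + t • y) * y i)
        (∑ i, (∑ j, pd j (pd i F) (x + t • y) * y j) * y i) t :=
      HasDerivAt.fun_sum fun i _ => (hd _ (contDiff_pd hF i) t).mul_const (y i)
    have h3 := (((hasDerivAt_id t).const_sub 1).mul h2).add (hd F hF t)
    refine h3.congr_deriv ?_
    simp only [id]
    have e1 : (∑ i, ∑ j, y i * (y j * ((1 - t) * pd j (pd i F) (x + t • y))))
        = (1 - t) * ∑ i, (∑ j, pd j (pd i F) (x + t • y) * y j) * y i := by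
      rw [Finset.mul_sum]
      refine Finset.sum_congr rfl fun i _ => ?_
      rw [Finset.sum_mul, Finset.mul_sum]
      exact Finset.sum_congr rfl fun j _ => by ring
    rw [e1]
    ring
  have hcont : ∀ i j, Continuous fun t : ℝ => (1 - t) * pd j (pd i F) (x + t • y) := fun i j =>
    (continuous_const.sub continuous_id).mul
      ((contDiff_pd (contDiff_pd hF i) j).continuous.comp
        (continuous_const.add (continuous_id.smul continuous_const)))
  have hc : Continuous fun t : ℝ => ∑ i, ∑ j, y i * (y j * ((1 - t) * pd j (pd i F) (x + t • y))) :=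
    continuous_finsetSum _ fun i _ => continuous_finsetSum _ fun j _ =>
      continuous_const.mul (continuous_const.mul (hcont i j))
  have h4 := intervalIntegral.integral_eq_sub_of_hasDerivAt (fun t _ => h1 t)
    (hc.intervalIntegrable 0 1)
  have e2 : (∫ t in (0 : ℝ)..1, ∑ i, ∑ j, y i * (y j * ((1 - t) * pd j (pd i F) (x + t • y))))
      = ∑ i, ∑ j, y i * (y j * ker2 F i j (Sum.elim x y)) := by
    have c2 : ∀ i j, Continuous fun t : ℝ => y i * (y j * ((1 - t) * pd j (pd i F) (x + t • y))) :=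
      fun i j => continuous_const.mul (continuous_const.mul (hcont i j))
    have c1 : ∀ i, Continuous fun t : ℝ =>
        ∑ j, y i * (y j * ((1 - t) * pd j (pd i F) (x + t • y))) :=
      fun i => continuous_finsetSum _ fun j _ => c2 i j
    rw [intervalIntegral.integral_finset_sum fun i _ => (c1 i).intervalIntegrable 0 1]
    refine Finset.sum_congr rfl fun i _ => ?_
    rw [intervalIntegral.integral_finset_sum fun j _ => (c2 i j).intervalIntegrable 0 1]
    refine Finset.sum_congr rfl fun j _ => ?_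
    rw [intervalIntegral.integral_const_mul, intervalIntegral.integral_const_mul, ker2_eq]
  rw [← e2, h4]
  simp only [sub_self, zero_mul, one_smul, zero_add, sub_zero, one_mul, zero_smul, add_zero]
  ring

/-! ## Differentiability -/

/-- the derivative -/
def dnem (l : P2 →L[ℝ] (ι → ℝ)) (m : ℕ) (F : (ι → ℝ) → ℝ) (f : ι → WR m) :
    (ι → WR m) →L[ℝ] WR m :=
  ∑ i, (prL m (nem l m (pd i F) f)).comp (ContinuousLinearMap.proj (R := ℝ) (φ := fun _ : ι => WR m) i)

lemma dnem_apply (l : P2 →L[ℝ] (ι → ℝ)) (m : ℕ) (F : (ι → ℝ) → ℝ) (f v : ι → WR m) :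
    dnem l m F f v = ∑ i, pr (nem l m (pd i F) f) (v i) := by
  unfold dnem
  rw [ContinuousLinearMap.sum_apply]
  rfl

lemma ev_sum {m : ℕ} {κ : Type} (S : Finset κ) (a : κ → WR m) (p : P2) :
    ev (∑ i ∈ S, a i) p = ∑ i ∈ S, ev (a i) p := by
  have h := map_sum (evL m p) a S
  exact h

lemma nem_taylor (l : P2 →L[ℝ] (ι → ℝ)) (m : ℕ) {F : (ι → ℝ) → ℝ} (hF : ContDiff ℝ ∞ F)
    (hp : PerL l F) (f v : ι → WR (m + 2)) :
    nem l (m + 2) F (f + v) - nem l (m + 2) F f - dnem l (m + 2) F f v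
      = ∑ i, ∑ j, pr (v i) (pr (v j) (nem (l2 l) (m + 2) (ker2 F i j) (Sum.elim f v))) := by
  refine H2 _ _ _ (funext fun p => ?_)
  rw [ev_sub, ev_sub, dnem_apply, ev_sum, ev_sum, nem_spec l m hF hp, nem_spec l m hF hp]
  have e1 : ∀ i, ev (pr (nem l (m + 2) (pd i F) f) (v i)) p = pd i F (arg l f p) * ev (v i) p := by
    intro i
    rw [ev_pr, nem_spec l m (contDiff_pd hF i) (perL_pd hp i)]
    rfl
  have e2 : ∀ i j, ev (pr (v i) (pr (v j) (nem (l2 l) (m + 2) (ker2 F i j) (Sum.elim f v)))) p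
      = ev (v i) p * (ev (v j) p * ker2 F i j (Sum.elim (arg l f p) (fun k => ev (v k) p))) := by
    intro i j
    rw [ev_pr, ev_pr, nem_spec (l2 l) m (contDiff_ker2 hF i j) (perL_ker2 hp i j)]
    unfold sup
    congr 3
    funext s
    rcases s with s | s
    · rfl
    · change l2 l p (Sum.inr s) + ev (v s) p = ev (v s) p
      rw [l2_inr, zero_add]
  have e3 := taylor2 hF (arg l f p) (fun k => ev (v k) p)
  have e4 : arg l f p + (fun k => ev (v k) p) = arg l (f + v) p := by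
    unfold arg
    rw [add_assoc]
    congr 1
    funext k
    exact (ev_add (f k) (v k) p).symm
  rw [e4] at e3
  simp only [e1]
  change F (arg l (f + v) p) - F (arg l f p) - _ = _
  rw [e3]
  refine Finset.sum_congr rfl fun i _ => ?_
  rw [ev_sum]
  exact Finset.sum_congr rfl fun j _ => (e2 i j).symm

lemma hasFDerivAt_nem (l : P2 →L[ℝ] (ι → ℝ)) (m : ℕ) {F : (ι → ℝ) → ℝ} (hF : ContDiff ℝ ∞ F)
    (hp : PerL l F) (f : ι → WR (m + 2)) :
    HasFDerivAt (nem l (m + 2) F) (dnem l (m + 2) F f) f := by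
  have hK : ∀ i j, ∃ C, 0 ≤ C ∧ ∀ g : ι ⊕ ι → WR (m + 2), ‖g‖ ≤ ‖f‖ + 1 →
      ‖nem (l2 l) (m + 2) (ker2 F i j) g‖ ≤ C := fun i j =>
    norm_nem_le (l2 l) m (contDiff_ker2 hF i j) (perL_ker2 hp i j) _
  choose C hC0 hC using hK
  rw [hasFDerivAt_iff_isLittleO_nhds_zero]
  refine Asymptotics.IsBigO.trans_isLittleO (g := fun v : ι → WR (m + 2) => ‖v‖ * ‖v‖) ?_ ?_
  · refine Asymptotics.IsBigO.of_bound (∑ i, ∑ j, C i j) ?_
    have h1 : ∀ᶠ v : ι → WR (m + 2) in 𝓝 0, ‖v‖ < 1 := by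
      have := (continuous_norm (E := ι → WR (m + 2))).tendsto 0
      rw [norm_zero] at this
      exact this.eventually (gt_mem_nhds one_pos)
    filter_upwards [h1] with v hv
    rw [nem_taylor l m hF hp, Real.norm_of_nonneg (by positivity), Finset.sum_mul]
    refine (norm_sum_le _ _).trans (Finset.sum_le_sum fun i _ => ?_)
    rw [Finset.sum_mul]
    refine (norm_sum_le _ _).trans (Finset.sum_le_sum fun j _ => ?_)
    have h2 : ‖(Sum.elim f v : ι ⊕ ι → WR (m + 2))‖ ≤ ‖f‖ + 1 := by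
      refine (pi_norm_le_iff_of_nonneg (by positivity)).2 fun s => ?_
      rcases s with s | s
      · exact (norm_le_pi_norm f s).trans (by linarith [norm_nonneg f])
      · refine (norm_le_pi_norm v s).trans ?_
        have := norm_nonneg f
        linarith
    have h3 := hC i j _ h2
    refine (norm_pr_le _ _).trans ?_
    have h4 := norm_pr_le (v j) (nem (l2 l) (m + 2) (ker2 F i j) (Sum.elim f v))
    have h5 := norm_le_pi_norm v i
    have h6 := norm_le_pi_norm v j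
    calc ‖v i‖ * ‖pr (v j) (nem (l2 l) (m + 2) (ker2 F i j) (Sum.elim f v))‖
        ≤ ‖v‖ * (‖v‖ * C i j) := by
          refine mul_le_mul h5 (h4.trans ?_) (norm_nonneg _) (norm_nonneg _)
          exact mul_le_mul h6 h3 (norm_nonneg _) (norm_nonneg _)
      _ = _ := by ring
  · have h2 : (fun d : ι → WR (m + 2) => ‖d‖) =o[𝓝 0] (fun _ => (1 : ℝ)) :=
      Asymptotics.isLittleO_one_iff ℝ |>.2 (by
        have := (continuous_norm (E := ι → WR (m + 2))).tendsto 0
        rwa [norm_zero] at this)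
    have h3 := h2.mul_isBigO
      (Asymptotics.isBigO_refl (fun d : ι → WR (m + 2) => ‖d‖) (𝓝 0))
    refine (h3.trans_isBigO ?_)
    refine Asymptotics.IsBigO.of_bound 1 (Eventually.of_forall fun d => ?_)
    simp

theorem contDiff_nem (l : P2 →L[ℝ] (ι → ℝ)) (m : ℕ) {F : (ι → ℝ) → ℝ} (hF : ContDiff ℝ ∞ F)
    (hp : PerL l F) : ContDiff ℝ ∞ (nem l (m + 2) F) := by
  rw [contDiff_infty]
  intro n
  induction n generalizing F with
  | zero =>
    exact contDiff_zero.2 (continuous_iff_continuousAt.2 fun f =>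
      (hasFDerivAt_nem l m hF hp f).continuousAt)
  | succ n ih =>
    have h1 : fderiv ℝ (nem l (m + 2) F) = dnem l (m + 2) F :=
      funext fun f => (hasFDerivAt_nem l m hF hp f).fderiv
    have h2 : ContDiff ℝ n (dnem l (m + 2) F) := by
      unfold dnem
      have h4 : ∀ i, ContDiff ℝ n fun f : ι → WR (m + 2) =>
          (prL (m + 2) (nem l (m + 2) (pd i F) f)).comp
            (ContinuousLinearMap.proj (R := ℝ) (φ := fun _ : ι => WR (m + 2)) i) := fun i =>
        ((prL (m + 2)).contDiff.comp (ih (contDiff_pd hF i) (perL_pd hp i))).clm_comp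
          contDiff_const
      exact ContDiff.sum fun i _ => h4 i
    have h3 : ((n + 1 : ℕ) : WithTop ℕ∞) = (n : WithTop ℕ∞) + 1 := by push_cast; rfl
    rw [h3, contDiff_succ_iff_fderiv]
    refine ⟨fun f => (hasFDerivAt_nem l m hF hp f).differentiableAt, fun h => by simp at h, ?_⟩
    rw [h1]
    exact h2

/-- `lin` as a continuous linear map -/
def linC : P2 →L[ℝ] (Fin 4 → ℝ) := ContinuousLinearMap.pi
  ![0, 0, ContinuousLinearMap.fst ℝ ℝ ℝ, ContinuousLinearMap.snd ℝ ℝ ℝ]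

lemma linC_apply (p : P2) : linC p = lin p := by
  funext i
  fin_cases i <;> rfl

lemma perL_of_per {F : R4 → ℝ} (hF : ∀ (n : Fin 4 → ℤ) x, F (fun i => x i + n i) = F x) :
    PerL linC F := by
  intro a b x
  have h1 := hF ![0, 0, a, b] x
  rw [← h1]
  congr 1
  funext i
  fin_cases i <;> simp [linC]

theorem H7 : H7_statement := by
  intro m hm F hF hp
  obtain ⟨m, rfl⟩ : ∃ k, m = k + 2 := ⟨m - 2, by omega⟩
  refine ⟨nem linC (m + 2) F, contDiff_nem linC m hF (perL_of_per hp), fun f p => ?_⟩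
  rw [nem_spec linC m hF (perL_of_per hp)]
  unfold sup arg
  rw [linC_apply]

end Vale.Agent.P247.H720
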