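import Vale.Agent.P247.H720.H.Wev

/-!
# Superposition operators: bounds
-/

open scoped ContDiff Topology
open Set MeasureTheory Filter Metric

noncomputable section

namespace Vale.Agent.P247.H720

open H74

variable {ι : Type} [Fintype ι] [DecidableEq ι]

/-- periodicity along the lattice of `l` -/
def PerL (l : P2 →L[ℝ] (ι → ℝ)) {E : Type*} (H : (ι → ℝ) → E) : Prop :=
  ∀ (a b : ℤ) (x : ι → ℝ), H (x + l ((a : ℝ), (b : ℝ))) = H x

/-- the argument -/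
def arg {m : ℕ} (l : P2 →L[ℝ] (ι → ℝ)) (g : ι → WR m) (p : P2) : ι → ℝ := l p + fun i => ev (g i) p

/-- superposition -/
def sup {m : ℕ} (l : P2 →L[ℝ] (ι → ℝ)) (H : (ι → ℝ) → ℝ) (g : ι → WR m) (p : P2) : ℝ :=
  H (arg l g p)

/-- partial derivatives -/
def pd (i : ι) (H : (ι → ℝ) → ℝ) (x : ι → ℝ) : ℝ :=
  fderiv ℝ H x (fun j => if i = j then 1 else 0)

lemma contDiff_pd {H : (ι → ℝ) → ℝ} (hH : ContDiff ℝ ∞ H) (i : ι) : ContDiff ℝ ∞ (pd i H) :=
  (hH.fderiv_right (m := ∞) (by norm_cast)).clm_apply contDiff_const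

lemma perL_pd {l : P2 →L[ℝ] (ι → ℝ)} {H : (ι → ℝ) → ℝ} (hp : PerL l H) (i : ι) :
    PerL l (pd i H) := by
  intro a b x
  have h1 : H = fun x => H (x + l ((a : ℝ), (b : ℝ))) := funext fun x => (hp a b x).symm
  unfold pd
  conv_rhs => rw [h1]
  rw [fderiv_comp_add_right]

lemma per_arg {m : ℕ} (l : P2 →L[ℝ] (ι → ℝ)) (g : ι → WR m) (a b : ℤ) (p : P2) :
    arg l g (p.1 + a, p.2 + b) = arg l g p + l ((a : ℝ), (b : ℝ)) := by
  unfold arg
  have h1 : ((p.1 + a, p.2 + b) : P2) = p + ((a : ℝ), (b : ℝ)) := rfl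
  have h2 : (fun i => ev (g i) (p.1 + a, p.2 + b)) = fun i => ev (g i) p :=
    funext fun i => per_ev (g i) a b p
  rw [h2, h1, map_add]
  abel

lemma per_sup {m : ℕ} {l : P2 →L[ℝ] (ι → ℝ)} {H : (ι → ℝ) → ℝ} (hp : PerL l H) (g : ι → WR m) :
    Per (sup l H g) := by
  intro a b p
  unfold sup
  rw [per_arg, hp]

lemma contDiff_arg {m : ℕ} (l : P2 →L[ℝ] (ι → ℝ)) (g : ι → WR m) : ContDiff ℝ m (arg l g) :=
  l.contDiff.add (contDiff_pi.2 fun i => contDiff_ev (g i))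

lemma contDiff_sup {m : ℕ} (l : P2 →L[ℝ] (ι → ℝ)) {H : (ι → ℝ) → ℝ} (hH : ContDiff ℝ ∞ H)
    (g : ι → WR m) : ContDiff ℝ m (sup l H g) :=
  (hH.of_le (by exact_mod_cast le_top)).comp (contDiff_arg l g)

lemma hasFDerivAt_arg {m : ℕ} (l : P2 →L[ℝ] (ι → ℝ)) (g : ι → WR (m + 1)) (p : P2) :
    HasFDerivAt (arg l g) (l + ContinuousLinearMap.pi fun i =>
      ((ev (SW m (g i)) p) • (ContinuousLinearMap.fst ℝ ℝ ℝ)
      + (ev (TW' m (g i)) p) • (ContinuousLinearMap.snd ℝ ℝ ℝ))) p := by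
  refine l.hasFDerivAt.add ?_
  exact hasFDerivAt_pi.2 fun i => hasFDerivAt_ev1 (g i) p

lemma fderiv_eq_sum (H : (ι → ℝ) → ℝ) (x v : ι → ℝ) :
    fderiv ℝ H x v = ∑ i, pd i H x * v i := by
  have h0 := LinearMap.pi_apply_eq_sum_univ (fderiv ℝ H x).toLinearMap v
  change fderiv ℝ H x v = _ at h0
  rw [h0]
  refine Finset.sum_congr rfl fun i _ => ?_
  rw [smul_eq_mul, mul_comm]
  rfl

lemma ds_sup {m : ℕ} (l : P2 →L[ℝ] (ι → ℝ)) {H : (ι → ℝ) → ℝ} (hH : ContDiff ℝ ∞ H)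
    (g : ι → WR (m + 1)) (p : P2) :
    ds (sup l H g) p = ∑ i, sup l (pd i H) g p * (l (1, 0) i + ev (SW m (g i)) p) := by
  have h1 : HasFDerivAt H (fderiv ℝ H (arg l g p)) (arg l g p) :=
    (hH.differentiable (by norm_num) _).hasFDerivAt
  have h2 := h1.comp p (hasFDerivAt_arg l g p)
  unfold ds
  have h3 : fderiv ℝ (sup l H g) p = _ := h2.fderiv
  rw [h3, ContinuousLinearMap.comp_apply, fderiv_eq_sum]
  refine Finset.sum_congr rfl fun i _ => ?_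
  simp [sup]

lemma dt_sup {m : ℕ} (l : P2 →L[ℝ] (ι → ℝ)) {H : (ι → ℝ) → ℝ} (hH : ContDiff ℝ ∞ H)
    (g : ι → WR (m + 1)) (p : P2) :
    dt (sup l H g) p = ∑ i, sup l (pd i H) g p * (l (0, 1) i + ev (TW' m (g i)) p) := by
  have h1 : HasFDerivAt H (fderiv ℝ H (arg l g p)) (arg l g p) :=
    (hH.differentiable (by norm_num) _).hasFDerivAt
  have h2 := h1.comp p (hasFDerivAt_arg l g p)
  unfold dt
  have h3 : fderiv ℝ (sup l H g) p = _ := h2.fderiv
  rw [h3, ContinuousLinearMap.comp_apply, fderiv_eq_sum]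
  refine Finset.sum_congr rfl fun i _ => ?_
  simp [sup]

/-- the properties of a scale of bounds which are used in the induction -/
structure Sys (Q : ℕ → (P2 → ℝ) → ℝ → Prop) : Prop where
  mono : ∀ k u B B', Q k u B → B ≤ B' → Q k u B'
  add : ∀ k u v B B', Q k u B → Q k v B' → Q k (fun p => u p + v p) (B + B')
  mul : ∀ k, ∃ c : ℝ, ∀ u v B B', Q k u B → Q k v B' → Q k (fun p => u p * v p) (c * B * B')
  const : ∀ k c, Q k (fun _ => c) |c|
  step : ∀ k, ∃ c : ℝ, ∀ u B, ContDiff ℝ 1 u → Per u → Q k u B → Q k (ds u) B → Q k (dt u) B →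
    Q (k + 1) u (c * B)
  ev : ∀ k, ∃ c : ℝ, 0 ≤ c ∧ ∀ a : WR k, Q k (H74.ev a) (c * ‖a‖)

lemma Sys.sum {Q : ℕ → (P2 → ℝ) → ℝ → Prop} (hQ : Sys Q) (k : ℕ) (u : ι → P2 → ℝ) (B : ι → ℝ)
    (h : ∀ i, Q k (u i) (B i)) : Q k (fun p => ∑ i, u i p) (∑ i, B i) := by
  have key : ∀ S : Finset ι, Q k (fun p => ∑ i ∈ S, u i p) (∑ i ∈ S, B i) := by
    intro S
    induction S using Finset.induction_on with
    | empty =>
      have := hQ.const k 0
      simpa using this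
    | insert a S ha ih =>
      simp only [Finset.sum_insert ha]
      exact hQ.add k _ _ _ _ (h a) ih
  exact key Finset.univ

/-- bounds for superpositions -/
theorem Sys.bound {Q : ℕ → (P2 → ℝ) → ℝ → Prop} (hQ : Sys Q) (l : P2 →L[ℝ] (ι → ℝ)) {m : ℕ} {R : ℝ}
    (base : ∀ H : (ι → ℝ) → ℝ, ContDiff ℝ ∞ H → PerL l H →
      ∃ C, ∀ g : ι → WR m, ‖g‖ ≤ R → Q 0 (sup l H g) C) (k : ℕ) (hk : k ≤ m) :
    ∀ H : (ι → ℝ) → ℝ, ContDiff ℝ ∞ H → PerL l H →
      ∃ C, ∀ g : ι → WR m, ‖g‖ ≤ R → Q k (sup l H g) C := by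
  induction k with
  | zero => exact base
  | succ k ih =>
    intro H hH hp
    obtain ⟨m, rfl⟩ : ∃ j, m = j + 1 := ⟨m - 1, by omega⟩
    have ih' := ih (by omega)
    obtain ⟨C₀, h₀⟩ := ih' H hH hp
    have h1 : ∀ i, ∃ C, ∀ g : ι → WR (m + 1), ‖g‖ ≤ R → Q k (sup l (pd i H) g) C :=
      fun i => ih' (pd i H) (contDiff_pd hH i) (perL_pd hp i)
    choose C₁ h₁ using h1
    obtain ⟨c₂, h₂⟩ := hQ.mul k
    obtain ⟨c₃, h₃⟩ := hQ.step k
    obtain ⟨c₄, h₄0, h₄⟩ := hQ.ev k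
    have hkm : k ≤ m := by omega
    -- the bound for the factors
    have hfac : ∀ (r : ℝ) (L : WR (m + 1) →L[ℝ] WR m) (g : ι → WR (m + 1)) (i : ι), ‖g‖ ≤ R →
        Q k (fun p => r + H74.ev (L (g i)) p) (|r| + c₄ * (‖incl m k hkm‖ * (‖L‖ * R))) := by
      intro r L g i hg
      refine hQ.add k _ _ _ _ (hQ.const k r) ?_
      have h5 := h₄ (incl m k hkm (L (g i)))
      have h6 : H74.ev (incl m k hkm (L (g i))) = H74.ev (L (g i)) := funext fun p => ev_incl hkm _ p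
      rw [h6] at h5
      refine hQ.mono k _ _ _ h5 (mul_le_mul_of_nonneg_left ?_ h₄0)
      refine ((incl m k hkm).le_opNorm _).trans (mul_le_mul_of_nonneg_left ?_ (norm_nonneg _))
      refine (L.le_opNorm _).trans (mul_le_mul_of_nonneg_left ?_ (norm_nonneg _))
      exact (norm_le_pi_norm g i).trans hg
    have hds : ∀ g : ι → WR (m + 1), ‖g‖ ≤ R → Q k (ds (sup l H g))
        (∑ i, c₂ * C₁ i * (|l (1, 0) i| + c₄ * (‖incl m k hkm‖ * (‖SW m‖ * R)))) := by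
      intro g hg
      have e1 : ds (sup l H g)
          = fun p => ∑ i, sup l (pd i H) g p * (l (1, 0) i + H74.ev (SW m (g i)) p) :=
        funext fun p => ds_sup l hH g p
      rw [e1]
      exact hQ.sum k (fun i p => sup l (pd i H) g p * (l (1, 0) i + H74.ev (SW m (g i)) p)) _
        fun i => h₂ _ _ _ _ (h₁ i g hg) (hfac _ _ g i hg)
    have hdt : ∀ g : ι → WR (m + 1), ‖g‖ ≤ R → Q k (dt (sup l H g))
        (∑ i, c₂ * C₁ i * (|l (0, 1) i| + c₄ * (‖incl m k hkm‖ * (‖TW' m‖ * R)))) := by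
      intro g hg
      have e1 : dt (sup l H g)
          = fun p => ∑ i, sup l (pd i H) g p * (l (0, 1) i + H74.ev (TW' m (g i)) p) :=
        funext fun p => dt_sup l hH g p
      rw [e1]
      exact hQ.sum k (fun i p => sup l (pd i H) g p * (l (0, 1) i + H74.ev (TW' m (g i)) p)) _
        fun i => h₂ _ _ _ _ (h₁ i g hg) (hfac _ _ g i hg)
    refine ⟨c₃ * max C₀ (max (∑ i, c₂ * C₁ i * (|l (1, 0) i| + c₄ * (‖incl m k hkm‖ * (‖SW m‖ * R))))
      (∑ i, c₂ * C₁ i * (|l (0, 1) i| + c₄ * (‖incl m k hkm‖ * (‖TW' m‖ * R))))), fun g hg => ?_⟩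
    refine h₃ _ _ ?_ (per_sup hp g) ?_ ?_ ?_
    · exact (contDiff_sup l hH g).of_le (by exact_mod_cast (by omega))
    · exact hQ.mono k _ _ _ (h₀ g hg) (le_max_left _ _)
    · exact hQ.mono k _ _ _ (hds g hg) ((le_max_left _ _).trans (le_max_right _ _))
    · exact hQ.mono k _ _ _ (hdt g hg) ((le_max_right _ _).trans (le_max_right _ _))

/-! ## the sup norm scale -/

/-- bounds for the derivatives of order `≤ k` -/
def SC : ℕ → (P2 → ℝ) → ℝ → Prop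
  | 0, u, B => Continuous u ∧ ∀ p, |u p| ≤ B
  | k + 1, u, B => ContDiff ℝ 1 u ∧ SC k u B ∧ SC k (ds u) B ∧ SC k (dt u) B

lemma SC.mono' : ∀ (k : ℕ) (u : P2 → ℝ) (B B' : ℝ), SC k u B → B ≤ B' → SC k u B'
  | 0, _, _, _, h, hB => ⟨h.1, fun p => (h.2 p).trans hB⟩
  | k + 1, _, _, _, h, hB => ⟨h.1, SC.mono' k _ _ _ h.2.1 hB, SC.mono' k _ _ _ h.2.2.1 hB,
      SC.mono' k _ _ _ h.2.2.2 hB⟩

lemma SC.nonneg : ∀ (k : ℕ) (u : P2 → ℝ) (B : ℝ), SC k u B → 0 ≤ B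
  | 0, _, _, h => (abs_nonneg _).trans (h.2 0)
  | k + 1, _, _, h => SC.nonneg k _ _ h.2.1

lemma ds_add' {u v : P2 → ℝ} (hu : ContDiff ℝ 1 u) (hv : ContDiff ℝ 1 v) :
    ds (fun p => u p + v p) = fun p => ds u p + ds v p := by
  funext p
  unfold ds
  rw [fderiv_fun_add (hu.differentiable one_ne_zero p) (hv.differentiable one_ne_zero p)]
  rfl

lemma dt_add' {u v : P2 → ℝ} (hu : ContDiff ℝ 1 u) (hv : ContDiff ℝ 1 v) :
    dt (fun p => u p + v p) = fun p => dt u p + dt v p := by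
  funext p
  unfold dt
  rw [fderiv_fun_add (hu.differentiable one_ne_zero p) (hv.differentiable one_ne_zero p)]
  rfl

lemma ds_mul' {u v : P2 → ℝ} (hu : ContDiff ℝ 1 u) (hv : ContDiff ℝ 1 v) :
    ds (fun p => u p * v p) = fun p => u p * ds v p + ds u p * v p := by
  funext p
  unfold ds
  rw [fderiv_fun_mul (hu.differentiable one_ne_zero p) (hv.differentiable one_ne_zero p)]
  simp only [ContinuousLinearMap.add_apply, ContinuousLinearMap.smul_apply, smul_eq_mul]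
  ring

lemma dt_mul' {u v : P2 → ℝ} (hu : ContDiff ℝ 1 u) (hv : ContDiff ℝ 1 v) :
    dt (fun p => u p * v p) = fun p => u p * dt v p + dt u p * v p := by
  funext p
  unfold dt
  rw [fderiv_fun_mul (hu.differentiable one_ne_zero p) (hv.differentiable one_ne_zero p)]
  simp only [ContinuousLinearMap.add_apply, ContinuousLinearMap.smul_apply, smul_eq_mul]
  ring

lemma SC.add' : ∀ (k : ℕ) (u v : P2 → ℝ) (B B' : ℝ), SC k u B → SC k v B' →
    SC k (fun p => u p + v p) (B + B')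
  | 0, _, _, _, _, h, h' => ⟨h.1.add h'.1, fun p => (abs_add_le _ _).trans (add_le_add (h.2 p) (h'.2 p))⟩
  | k + 1, u, v, B, B', h, h' => by
    refine ⟨h.1.add h'.1, SC.add' k _ _ _ _ h.2.1 h'.2.1, ?_, ?_⟩
    · rw [ds_add' h.1 h'.1]
      exact SC.add' k _ _ _ _ h.2.2.1 h'.2.2.1
    · rw [dt_add' h.1 h'.1]
      exact SC.add' k _ _ _ _ h.2.2.2 h'.2.2.2

lemma SC.mul' : ∀ (k : ℕ) (u v : P2 → ℝ) (B B' : ℝ), SC k u B → SC k v B' →
    SC k (fun p => u p * v p) (2 ^ k * B * B')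
  | 0, _, _, B, B', h, h' => by
    refine ⟨h.1.mul h'.1, fun p => ?_⟩
    rw [abs_mul, pow_zero, one_mul]
    exact mul_le_mul (h.2 p) (h'.2 p) (abs_nonneg _) ((abs_nonneg _).trans (h.2 p))
  | k + 1, u, v, B, B', h, h' => by
    have hB := SC.nonneg _ _ _ h.2.1
    have hB' := SC.nonneg _ _ _ h'.2.1
    have e1 : (2 : ℝ) ^ (k + 1) * B * B' = 2 ^ k * B * B' + 2 ^ k * B * B' := by ring
    refine ⟨h.1.mul h'.1, ?_, ?_, ?_⟩
    · refine SC.mono' k _ _ _ (SC.mul' k _ _ _ _ h.2.1 h'.2.1) ?_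
      rw [e1]
      have : 0 ≤ 2 ^ k * B * B' := by positivity
      linarith
    · rw [ds_mul' h.1 h'.1, e1]
      exact SC.add' k _ _ _ _ (SC.mul' k _ _ _ _ h.2.1 h'.2.2.1)
        (SC.mul' k _ _ _ _ h.2.2.1 h'.2.1)
    · rw [dt_mul' h.1 h'.1, e1]
      exact SC.add' k _ _ _ _ (SC.mul' k _ _ _ _ h.2.1 h'.2.2.2)
        (SC.mul' k _ _ _ _ h.2.2.2 h'.2.1)

lemma SC.const' : ∀ (k : ℕ) (c : ℝ), SC k (fun _ => c) |c|
  | 0, c => ⟨continuous_const, fun _ => le_rfl⟩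
  | k + 1, c => by
    have h1 : ds (fun _ : P2 => c) = fun _ => 0 := by
      funext p
      unfold ds
      rw [fderiv_fun_const]
      rfl
    have h2 : dt (fun _ : P2 => c) = fun _ => 0 := by
      funext p
      unfold dt
      rw [fderiv_fun_const]
      rfl
    have h3 := SC.mono' k _ _ _ (SC.const' k 0) (by rw [abs_zero]; exact abs_nonneg c : |(0 : ℝ)| ≤ |c|)
    refine ⟨contDiff_const, SC.const' k c, ?_, ?_⟩
    · rw [h1]
      exact h3
    · rw [h2]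
      exact h3

lemma SC.ev' : ∀ (k : ℕ), ∃ c : ℝ, 0 ≤ c ∧ ∀ a : WR k, SC k (ev a) (c * ‖a‖)
  | 0 => ⟨1, zero_le_one, fun a => ⟨continuous_ev a, fun p => by
      rw [one_mul]
      exact abs_ev_le a p⟩⟩
  | k + 1 => by
    obtain ⟨c, hc, h⟩ := SC.ev' k
    refine ⟨c * (‖incl (k + 1) k (Nat.le_succ k)‖ + ‖SW k‖ + ‖TW' k‖), by positivity, fun a => ?_⟩
    have key : ∀ (L : WR (k + 1) →L[ℝ] WR k) (M : ℝ), ‖L‖ ≤ M → SC k (ev (L a)) (c * M * ‖a‖) := by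
      intro L M hM
      refine SC.mono' k _ _ _ (h (L a)) ?_
      rw [mul_assoc]
      exact mul_le_mul_of_nonneg_left ((L.le_opNorm a).trans
        (mul_le_mul_of_nonneg_right hM (norm_nonneg _))) hc
    have n1 := norm_nonneg (incl (k + 1) k (Nat.le_succ k))
    have n2 := norm_nonneg (SW k)
    have n3 := norm_nonneg (TW' k)
    refine ⟨(contDiff_ev a).of_le (by exact_mod_cast (by omega)), ?_, ?_, ?_⟩
    · have e1 : ev a = ev (incl (k + 1) k (Nat.le_succ k) a) :=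
        funext fun p => (ev_incl _ a p).symm
      rw [e1]
      exact key _ _ (by linarith)
    · have e1 : ds (ev a) = ev (SW k a) := funext fun p => ds_ev a p
      rw [e1]
      exact key _ _ (by linarith)
    · have e1 : dt (ev a) = ev (TW' k a) := funext fun p => dt_ev a p
      rw [e1]
      exact key _ _ (by linarith)

theorem sysSC : Sys SC where
  mono := SC.mono'
  add := SC.add'
  mul := fun k => ⟨2 ^ k, fun u v B B' h h' => SC.mul' k u v B B' h h'⟩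
  const := SC.const'
  step := fun k => ⟨1, fun u B hu _ h0 h1 h2 => by
    rw [one_mul]
    exact ⟨hu, h0, h1, h2⟩⟩
  ev := SC.ev'

/-! ## the Wiener scale -/

/-- elements of norm at most `B` -/
def WQ (k : ℕ) (u : P2 → ℝ) (B : ℝ) : Prop := ∃ a : WR k, ev a = u ∧ ‖a‖ ≤ B

lemma ds_ofReal {u : P2 → ℝ} (hu : ContDiff ℝ 1 u) :
    ds (fun p => ((u p : ℝ) : ℂ)) = fun p => ((ds u p : ℝ) : ℂ) := by
  funext p
  unfold ds
  have h1 := Complex.ofRealCLM.hasFDerivAt.comp p (hu.differentiable one_ne_zero p).hasFDerivAt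
  have h2 : fderiv ℝ (fun p => ((u p : ℝ) : ℂ)) p = _ := h1.fderiv
  rw [h2]
  rfl

lemma dt_ofReal {u : P2 → ℝ} (hu : ContDiff ℝ 1 u) :
    dt (fun p => ((u p : ℝ) : ℂ)) = fun p => ((dt u p : ℝ) : ℂ) := by
  funext p
  unfold dt
  have h1 := Complex.ofRealCLM.hasFDerivAt.comp p (hu.differentiable one_ne_zero p).hasFDerivAt
  have h2 : fderiv ℝ (fun p => ((u p : ℝ) : ℂ)) p = _ := h1.fderiv
  rw [h2]
  rfl

lemma WQ.sb {k : ℕ} {u : P2 → ℝ} {B : ℝ} (h : WQ k u B) :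
    SB k (fc fun p => ((u p : ℝ) : ℂ)) B := by
  obtain ⟨a, rfl, ha⟩ := h
  rw [fc_ev]
  exact (SB_cf a).mono ha

theorem sysWQ : Sys WQ where
  mono := fun k u B B' ⟨a, ha, hB⟩ h => ⟨a, ha, hB.trans h⟩
  add := by
    rintro k u v B B' ⟨a, rfl, ha⟩ ⟨b, rfl, hb⟩
    exact ⟨a + b, funext fun p => ev_add a b p, (norm_add_le _ _).trans (add_le_add ha hb)⟩
  mul := by
    intro k
    refine ⟨1, ?_⟩
    rintro u v B B' ⟨a, rfl, ha⟩ ⟨b, rfl, hb⟩
    refine ⟨pr a b, funext fun p => ev_pr a b p, (norm_pr_le a b).trans ?_⟩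
    rw [one_mul]
    exact mul_le_mul ha hb (norm_nonneg _) ((norm_nonneg _).trans ha)
  const := fun k c => ⟨cst k c, funext fun p => ev_cst k c p, norm_cst_le k c⟩
  step := by
    intro k
    refine ⟨3, fun u B hu hp h0 h1 h2 => ?_⟩
    have hc : ContDiff ℝ 1 fun p => ((u p : ℝ) : ℂ) := Complex.ofRealCLM.contDiff.comp hu
    have hpc : Per fun p => ((u p : ℝ) : ℂ) := fun a b p => by simp only [hp a b p]
    have s1 := h1.sb
    have s2 := h2.sb
    rw [← ds_ofReal hu] at s1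
    rw [← dt_ofReal hu] at s2
    have h3 := SB_succ hc hpc h0.sb s1 s2
    obtain ⟨a, ha, hb⟩ := exists_of_SB hu.continuous hp h3
    exact ⟨a, ha, hb.trans (by linarith)⟩
  ev := fun k => ⟨1, zero_le_one, fun a => ⟨a, rfl, by rw [one_mul]⟩⟩

/-- compactness -/
lemma bound_per (l : P2 →L[ℝ] (ι → ℝ)) {H : (ι → ℝ) → ℝ} (hH : Continuous H) (hp : PerL l H)
    (R : ℝ) : ∃ C : ℝ, ∀ p : P2, ∀ y : ι → ℝ, ‖y‖ ≤ R → |H (l p + y)| ≤ C := by
  have hK : IsCompact (Icc (0 : P2) 1 ×ˢ closedBall (0 : ι → ℝ) R) :=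
    isCompact_Icc.prod (isCompact_closedBall _ _)
  have hc : Continuous fun q : P2 × (ι → ℝ) => H (l q.1 + q.2) :=
    hH.comp ((l.continuous.comp continuous_fst).add continuous_snd)
  obtain ⟨C, hC⟩ := hK.exists_bound_of_continuousOn hc.continuousOn
  refine ⟨C, fun p y hy => ?_⟩
  have h1 : l p + y = l (Int.fract p.1, Int.fract p.2) + y + l ((⌊p.1⌋ : ℝ), (⌊p.2⌋ : ℝ)) := by
    have : p = (Int.fract p.1, Int.fract p.2) + ((⌊p.1⌋ : ℝ), (⌊p.2⌋ : ℝ)) := by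
      ext <;> simp
    conv_lhs => rw [this, map_add]
    abel
  rw [h1, hp]
  have h2 := hC ((Int.fract p.1, Int.fract p.2), y) ⟨⟨⟨Int.fract_nonneg _, Int.fract_nonneg _⟩,
    ⟨(Int.fract_lt_one _).le, (Int.fract_lt_one _).le⟩⟩, by
      rw [mem_closedBall, dist_zero_right]; exact hy⟩
  exact h2

lemma norm_evs_le {m : ℕ} (g : ι → WR m) (p : P2) : ‖fun i => ev (g i) p‖ ≤ ‖g‖ := by
  refine (pi_norm_le_iff_of_nonneg (norm_nonneg _)).2 fun i => ?_
  exact (abs_ev_le (g i) p).trans (norm_le_pi_norm g i)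

/-- superpositions belong to the Wiener algebra, with bounds -/
theorem exists_sup (l : P2 →L[ℝ] (ι → ℝ)) (m : ℕ) {H : (ι → ℝ) → ℝ} (hH : ContDiff ℝ ∞ H)
    (hp : PerL l H) (R : ℝ) :
    ∃ C, ∀ g : ι → WR (m + 2), ‖g‖ ≤ R → WQ (m + 2) (sup l H g) C := by
  refine sysWQ.bound l ?_ (m + 2) le_rfl H hH hp
  intro G hG hpG
  obtain ⟨C, hC⟩ := sysSC.bound l (m := m + 2) (R := R) (fun K hK hpK => by
    obtain ⟨C, hC⟩ := bound_per l hK.continuous hpK R
    exact ⟨C, fun g hg => ⟨hK.continuous.comp (contDiff_arg l g).continuous, fun p =>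
      hC p _ ((norm_evs_le g p).trans hg)⟩⟩) 2 (by omega) G hG hpG
  refine ⟨C0 * C, fun g hg => ?_⟩
  have h1 := hC g hg
  have hs2 : ContDiff ℝ 2 (sup l G g) := (contDiff_sup l hG g).of_le (by exact_mod_cast (by omega))
  have hs1 : ContDiff ℝ 1 (sup l G g) := hs2.of_le one_le_two
  have hsc : ContDiff ℝ 2 fun p => ((sup l G g p : ℝ) : ℂ) := Complex.ofRealCLM.contDiff.comp hs2
  have hper := per_sup hpG g
  have hpc : Per fun p => ((sup l G g p : ℝ) : ℂ) := fun a b p => by simp only [hper a b p]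
  obtain ⟨g0, ⟨g1, g2, g3, g4⟩, ⟨g5, g6, g7, g8⟩, ⟨g9, g10, g11, g12⟩⟩ := h1
  have h3 := SB_zero_of_C2 hsc hpc (B := C) (fun p => by
      rw [Complex.norm_real]
      exact g2.2 p) (fun p => by
      rw [ds_ofReal hs1, ds_ofReal g5, Complex.norm_real]
      exact g7.2 p) (fun p => by
      rw [dt_ofReal hs1, dt_ofReal g9, Complex.norm_real]
      exact g12.2 p)
  exact exists_of_SB hs2.continuous hper h3

end Vale.Agent.P247.H720
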