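import Vale.Agent.P247.H720.H.Ww

/-!
# Joint smoothness of the evaluation
-/

open scoped ContDiff Topology
open Set MeasureTheory Filter Metric

noncomputable section

namespace Vale.Agent.P247.H720

open H74

/-- evaluation at a point -/
def evL (m : ℕ) (p : P2) : WR m →L[ℝ] ℝ :=
  LinearMap.mkContinuous
    { toFun := fun a => ev a p
      map_add' := fun a b => ev_add a b p
      map_smul' := fun c a => ev_smul c a p } 1 (fun a => by
    rw [one_mul]
    exact abs_ev_le a p)

lemma evL_apply (m : ℕ) (p : P2) (a : WR m) : evL m p a = ev a p := rfl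

/-- difference of characters -/
lemma norm_ch_sub_le (n : ℤ × ℤ) (p q : P2) : ‖ch n p - ch n q‖ ≤ 2 * Real.pi * wt n * ‖p - q‖ := by
  have h : ∀ x ∈ (univ : Set P2), HasFDerivWithinAt (ch n) (ch n x • chL n) univ x :=
    fun x _ => (hasFDerivAt_ch n x).hasFDerivWithinAt
  have h2 : ∀ x ∈ (univ : Set P2), ‖ch n x • chL n‖ ≤ 2 * Real.pi * wt n := fun x _ => by
    rw [norm_smul, norm_ch, one_mul]
    exact norm_chL_le n
  exact convex_univ.norm_image_sub_le_of_norm_hasFDerivWithin_le h h2 (mem_univ q) (mem_univ p)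

lemma norm_ch_taylor (n : ℤ × ℤ) (p d : P2) :
    ‖ch n (p + d) - ch n p - (ch n p • chL n) d‖ ≤ (2 * Real.pi * wt n) ^ 2 * ‖d‖ ^ 2 := by
  -- the function q ↦ ch n q - (ch n p • chL n) q has small derivative on the segment
  have h : ∀ x ∈ closedBall p ‖d‖, HasFDerivWithinAt (fun q => ch n q - (ch n p • chL n) q)
      (ch n x • chL n - ch n p • chL n) (closedBall p ‖d‖) x :=
    fun x _ => ((hasFDerivAt_ch n x).sub (ch n p • chL n).hasFDerivAt).hasFDerivWithinAt
  have hw := wt_pos n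
  have h2 : ∀ x ∈ closedBall p ‖d‖, ‖ch n x • chL n - ch n p • chL n‖
      ≤ (2 * Real.pi * wt n) ^ 2 * ‖d‖ := by
    intro x hx
    have e0 : ch n x • chL n - ch n p • chL n = (ch n x - ch n p) • chL n := by
      refine ContinuousLinearMap.ext fun v => ?_
      simp only [ContinuousLinearMap.sub_apply, ContinuousLinearMap.smul_apply, smul_eq_mul]
      ring
    rw [e0, norm_smul]
    have h3 := norm_ch_sub_le n x p
    have h4 : ‖x - p‖ ≤ ‖d‖ := by
      rw [← dist_eq_norm]
      exact hx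
    have h5 := norm_chL_le n
    have h6 : ‖ch n x - ch n p‖ ≤ 2 * Real.pi * wt n * ‖d‖ :=
      h3.trans (mul_le_mul_of_nonneg_left h4 (by positivity))
    calc ‖ch n x - ch n p‖ * ‖chL n‖ ≤ (2 * Real.pi * wt n * ‖d‖) * (2 * Real.pi * wt n) :=
          mul_le_mul h6 h5 (norm_nonneg _) (by positivity)
      _ = _ := by ring
  have h7 := (convex_closedBall p ‖d‖).norm_image_sub_le_of_norm_hasFDerivWithin_le h h2
    (x := p) (y := p + d) (mem_closedBall_self (norm_nonneg _)) (by
      rw [mem_closedBall, dist_eq_norm, add_sub_cancel_left])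
  rw [add_sub_cancel_left] at h7
  have h8 : ch n (p + d) - (ch n p • chL n) (p + d) - (ch n p - (ch n p • chL n) p)
      = ch n (p + d) - ch n p - (ch n p • chL n) d := by
    rw [map_add]
    ring
  rw [h8] at h7
  calc _ ≤ _ := h7
    _ = _ := by ring

/-- the evaluation is Lipschitz in the point -/
lemma abs_ev_sub_le {m : ℕ} (a : WR (m + 1)) (p q : P2) :
    |ev a p - ev a q| ≤ 2 * Real.pi * ‖a‖ * ‖p - q‖ := by
  have h1 : ((ev a p - ev a q : ℝ) : ℂ) = ∑' n, cf a n * (ch n p - ch n q) := by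
    rw [Complex.ofReal_sub, ofReal_ev, ofReal_ev]
    unfold ser
    rw [← (summable_term (summable_norm_cf a) p).tsum_sub (summable_term (summable_norm_cf a) q)]
    exact tsum_congr fun n => by ring
  rw [← Real.norm_eq_abs, ← Complex.norm_real, h1]
  have hb : ∀ n, ‖cf a n * (ch n p - ch n q)‖ ≤ 2 * Real.pi * ‖p - q‖ * (wt n ^ 1 * ‖cf a n‖) := by
    intro n
    rw [norm_mul]
    have := norm_ch_sub_le n p q
    have h0 := norm_nonneg (cf a n)
    calc ‖cf a n‖ * ‖ch n p - ch n q‖ ≤ ‖cf a n‖ * (2 * Real.pi * wt n * ‖p - q‖) :=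
          mul_le_mul_of_nonneg_left this h0
      _ = _ := by ring
  refine (tsum_of_norm_bounded ((summable_one a).mul_left _).hasSum hb).trans ?_
  rw [tsum_mul_left]
  have h2 : ∑' n, wt n ^ 1 * ‖cf a n‖ ≤ ‖a‖ := ((SB_cf a).of_le (by omega)).tsum_le
  calc 2 * Real.pi * ‖p - q‖ * ∑' n, wt n ^ 1 * ‖cf a n‖ ≤ 2 * Real.pi * ‖p - q‖ * ‖a‖ :=
        mul_le_mul_of_nonneg_left h2 (by positivity)
    _ = _ := by ring

/-- the derivative of the evaluation functional -/
def evD (m : ℕ) (p : P2) : P2 →L[ℝ] (WR (m + 2) →L[ℝ] ℝ) :=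
  (ContinuousLinearMap.fst ℝ ℝ ℝ).smulRight ((evL (m + 1) p).comp (SW (m + 1)))
  + (ContinuousLinearMap.snd ℝ ℝ ℝ).smulRight ((evL (m + 1) p).comp (TW' (m + 1)))

lemma evD_apply (m : ℕ) (p d : P2) (a : WR (m + 2)) :
    evD m p d a = d.1 * ev (SW (m + 1) a) p + d.2 * ev (TW' (m + 1) a) p := rfl

lemma hasFDerivAt_evL (m : ℕ) (p : P2) : HasFDerivAt (evL (m + 2)) (evD m p) p := by
  rw [hasFDerivAt_iff_isLittleO_nhds_zero]
  refine Asymptotics.IsBigO.trans_isLittleO (g := fun d : P2 => ‖d‖ ^ 2) ?_ ?_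
  · refine Asymptotics.IsBigO.of_bound ((2 * Real.pi) ^ 2) (Eventually.of_forall fun d => ?_)
    rw [Real.norm_of_nonneg (by positivity)]
    refine ContinuousLinearMap.opNorm_le_bound _ (by positivity) fun a => ?_
    have h1 : (((evL (m + 2) (p + d) - evL (m + 2) p - evD m p d) a : ℝ) : ℂ)
        = ∑' n, cf a n * (ch n (p + d) - ch n p - (ch n p • chL n) d) := by
      change ((ev a (p + d) - ev a p - evD m p d a : ℝ) : ℂ) = _
      have hs := summable_term (summable_norm_cf (SW (m + 1) a)) p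
      have ht := summable_term (summable_norm_cf (TW' (m + 1) a)) p
      rw [evD_apply, Complex.ofReal_sub, Complex.ofReal_sub, Complex.ofReal_add,
        Complex.ofReal_mul, Complex.ofReal_mul, ofReal_ev, ofReal_ev, ofReal_ev, ofReal_ev]
      unfold ser
      rw [← tsum_mul_left, ← tsum_mul_left, ← (hs.mul_left _).tsum_add (ht.mul_left _),
        ← (summable_term (summable_norm_cf a) (p + d)).tsum_sub
          (summable_term (summable_norm_cf a) p),
        ← ((summable_term (summable_norm_cf a) (p + d)).sub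
          (summable_term (summable_norm_cf a) p)).tsum_sub ((hs.mul_left _).add (ht.mul_left _))]
      refine tsum_congr fun n => ?_
      rw [cf_SW, cf_TW, ContinuousLinearMap.smul_apply, chL_apply, smul_eq_mul]
      unfold dsc dtc
      ring
    rw [← Complex.norm_real, h1]
    have hb : ∀ n, ‖cf a n * (ch n (p + d) - ch n p - (ch n p • chL n) d)‖
        ≤ (2 * Real.pi) ^ 2 * ‖d‖ ^ 2 * (wt n ^ 2 * ‖cf a n‖) := by
      intro n
      rw [norm_mul]
      have := norm_ch_taylor n p d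
      calc ‖cf a n‖ * ‖ch n (p + d) - ch n p - (ch n p • chL n) d‖
          ≤ ‖cf a n‖ * ((2 * Real.pi * wt n) ^ 2 * ‖d‖ ^ 2) :=
            mul_le_mul_of_nonneg_left this (norm_nonneg _)
        _ = _ := by ring
    have hs2 : SB 2 (cf a) ‖a‖ := (SB_cf a).of_le (by omega)
    refine (tsum_of_norm_bounded (hs2.summable.mul_left _).hasSum hb).trans ?_
    rw [tsum_mul_left]
    exact mul_le_mul_of_nonneg_left hs2.tsum_le (by positivity)
  · have h1 : (fun d : P2 => ‖d‖ ^ 2) = fun d : P2 => ‖d‖ * ‖d‖ := by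
      funext d; ring
    rw [h1]
    have h2 : (fun d : P2 => ‖d‖) =o[𝓝 0] (fun _ : P2 => (1 : ℝ)) :=
      Asymptotics.isLittleO_one_iff ℝ |>.2 (by
        have := (continuous_norm (E := P2)).tendsto 0
        rwa [norm_zero] at this)
    have h3 := h2.mul_isBigO (Asymptotics.isBigO_refl (fun d : P2 => ‖d‖) (𝓝 0))
    refine (h3.trans_isBigO ?_)
    refine Asymptotics.IsBigO.of_bound 1 (Eventually.of_forall fun d => ?_)
    simp

lemma contDiff_evL (m : ℕ) : ContDiff ℝ m (evL (m + 1)) := by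
  induction m with
  | zero =>
    refine contDiff_zero.2 ?_
    refine (LipschitzWith.of_dist_le_mul (K := ⟨2 * Real.pi, by positivity⟩) fun p q => ?_).continuous
    rw [dist_eq_norm, dist_eq_norm]
    refine ContinuousLinearMap.opNorm_le_bound _
      (mul_nonneg (NNReal.coe_nonneg _) (norm_nonneg _)) fun a => ?_
    change |ev a p - ev a q| ≤ _
    refine (abs_ev_sub_le a p q).trans (le_of_eq ?_)
    change 2 * Real.pi * ‖a‖ * ‖p - q‖ = 2 * Real.pi * ‖p - q‖ * ‖a‖
    ring
  | succ m ih =>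
    have h1 : fderiv ℝ (evL (m + 2)) = evD m := funext fun p => (hasFDerivAt_evL m p).fderiv
    have h2 : ContDiff ℝ m (evD m) := by
      unfold evD
      have hS : ContDiff ℝ m fun p => (evL (m + 1) p).comp (SW (m + 1)) :=
        ih.clm_comp contDiff_const
      have hT : ContDiff ℝ m fun p => (evL (m + 1) p).comp (TW' (m + 1)) :=
        ih.clm_comp contDiff_const
      exact (contDiff_const.smulRight hS).add (contDiff_const.smulRight hT)
    have h3 : ((m + 1 : ℕ) : WithTop ℕ∞) = (m : WithTop ℕ∞) + 1 := by push_cast; rfl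
    rw [h3, contDiff_succ_iff_fderiv]
    refine ⟨fun p => (hasFDerivAt_evL m p).differentiableAt, fun h => by simp at h, ?_⟩
    rw [h1]
    exact h2

/-- the derivative of the joint evaluation -/
def evJ (m : ℕ) (q : WR (m + 1) × P2) : (WR (m + 1) × P2) →L[ℝ] ℝ :=
  (evL (m + 1) q.2).comp (ContinuousLinearMap.fst ℝ _ _)
  + (ev (SW m q.1) q.2) • ((ContinuousLinearMap.fst ℝ ℝ ℝ).comp (ContinuousLinearMap.snd ℝ _ _))
  + (ev (TW' m q.1) q.2) • ((ContinuousLinearMap.snd ℝ ℝ ℝ).comp (ContinuousLinearMap.snd ℝ _ _))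

lemma hasFDerivAt_ev1 {m : ℕ} (a : WR (m + 1)) (p : P2) :
    HasFDerivAt (ev a) ((ev (SW m a) p) • (ContinuousLinearMap.fst ℝ ℝ ℝ)
      + (ev (TW' m a) p) • (ContinuousLinearMap.snd ℝ ℝ ℝ)) p := by
  have h1 := (differentiableAt_ev a p).hasFDerivAt
  have h2 : fderiv ℝ (ev a) p = (ev (SW m a) p) • (ContinuousLinearMap.fst ℝ ℝ ℝ)
      + (ev (TW' m a) p) • (ContinuousLinearMap.snd ℝ ℝ ℝ) := by
    ext
    · have := ds_ev a p
      unfold ds at this
      simp [this]
    · have := dt_ev a p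
      unfold dt at this
      simp [this]
  rwa [h2] at h1

lemma hasFDerivAt_evJ (m : ℕ) (q : WR (m + 1) × P2) :
    HasFDerivAt (fun q : WR (m + 1) × P2 => ev q.1 q.2) (evJ m q) q := by
  obtain ⟨a, p⟩ := q
  rw [hasFDerivAt_iff_isLittleO_nhds_zero]
  have e1 : (fun h : WR (m + 1) × P2 => ev ((a, p) + h).1 ((a, p) + h).2 - ev (a, p).1 (a, p).2
      - evJ m (a, p) h) = fun h => (ev a (p + h.2) - ev a p - ((ev (SW m a) p) •
        (ContinuousLinearMap.fst ℝ ℝ ℝ) + (ev (TW' m a) p) • (ContinuousLinearMap.snd ℝ ℝ ℝ)) h.2)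
        + (ev h.1 (p + h.2) - ev h.1 p) := by
    funext h
    simp only [Prod.fst_add, Prod.snd_add, ev_add]
    unfold evJ
    simp only [ContinuousLinearMap.add_apply, ContinuousLinearMap.comp_apply,
      ContinuousLinearMap.smul_apply, ContinuousLinearMap.coe_fst', ContinuousLinearMap.coe_snd',
      evL_apply, smul_eq_mul]
    ring
  rw [e1]
  refine Asymptotics.IsLittleO.add ?_ ?_
  · have h1 := hasFDerivAt_iff_isLittleO_nhds_zero.1 (hasFDerivAt_ev1 a p)
    have h2 : Tendsto (fun h : WR (m + 1) × P2 => h.2) (𝓝 0) (𝓝 0) :=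
      (continuous_snd (X := WR (m + 1)) (Y := P2)).tendsto 0
    refine (h1.comp_tendsto h2).trans_isBigO ?_
    refine Asymptotics.IsBigO.of_bound 1 (Eventually.of_forall fun h => ?_)
    rw [one_mul]
    exact norm_snd_le h
  · refine Asymptotics.IsBigO.trans_isLittleO
      (g := fun h : WR (m + 1) × P2 => ‖h‖ * ‖h‖) ?_ ?_
    · refine Asymptotics.IsBigO.of_bound (2 * Real.pi) (Eventually.of_forall fun h => ?_)
      have h1 := abs_ev_sub_le h.1 (p + h.2) p
      rw [add_sub_cancel_left] at h1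
      rw [Real.norm_eq_abs, Real.norm_of_nonneg (by positivity)]
      refine h1.trans ?_
      have h2 := norm_fst_le h
      have h3 := norm_snd_le h
      rw [mul_assoc]
      exact mul_le_mul_of_nonneg_left (mul_le_mul h2 h3 (norm_nonneg _) (norm_nonneg _))
        (by positivity)
    · have h2 : (fun d : WR (m + 1) × P2 => ‖d‖) =o[𝓝 0] (fun _ => (1 : ℝ)) :=
        Asymptotics.isLittleO_one_iff ℝ |>.2 (by
          have := (continuous_norm (E := WR (m + 1) × P2)).tendsto 0
          rwa [norm_zero] at this)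
      have h3 := h2.mul_isBigO
        (Asymptotics.isBigO_refl (fun d : WR (m + 1) × P2 => ‖d‖) (𝓝 0))
      refine (h3.trans_isBigO ?_)
      refine Asymptotics.IsBigO.of_bound 1 (Eventually.of_forall fun d => ?_)
      simp

lemma contDiff_evJ (m : ℕ) : ContDiff ℝ m (fun q : WR m × P2 => ev q.1 q.2) := by
  induction m with
  | zero =>
    refine contDiff_zero.2 ?_
    rw [continuous_iff_continuousAt]
    rintro ⟨a, p⟩
    have e1 : (fun q : WR 0 × P2 => ev q.1 q.2) = fun q => ev (q.1 - a) q.2 + ev a q.2 := by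
      funext q
      rw [ev_sub]
      ring
    rw [e1]
    have h1 : Tendsto (fun q : WR 0 × P2 => ev (q.1 - a) q.2) (𝓝 (a, p)) (𝓝 0) := by
      refine squeeze_zero_norm (a := fun q : WR 0 × P2 => ‖q.1 - a‖) (fun q => abs_ev_le _ _) ?_
      have : Continuous fun q : WR 0 × P2 => ‖q.1 - a‖ := (continuous_fst.sub continuous_const).norm
      have h2 := this.tendsto (a, p)
      simpa using h2
    have h2 : Tendsto (fun q : WR 0 × P2 => ev a q.2) (𝓝 (a, p)) (𝓝 (ev a p)) :=
      ((continuous_ev a).comp continuous_snd).tendsto (a, p)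
    have h3 := h1.add h2
    rw [zero_add] at h3
    have h4 : ev (a - a) p + ev a p = ev a p := by
      rw [sub_self, ev_zero, zero_add]
    change Tendsto _ _ (𝓝 (ev ((a, p).1 - a) (a, p).2 + ev a (a, p).2))
    simp only
    rw [h4]
    exact h3
  | succ m ih =>
    have h1 : fderiv ℝ (fun q : WR (m + 1) × P2 => ev q.1 q.2) = evJ m :=
      funext fun q => (hasFDerivAt_evJ m q).fderiv
    have h2 : ContDiff ℝ m (evJ m) := by
      unfold evJ
      have hE : ContDiff ℝ m fun q : WR (m + 1) × P2 => (evL (m + 1) q.2).comp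
          (ContinuousLinearMap.fst ℝ (WR (m + 1)) P2) :=
        ((contDiff_evL m).comp contDiff_snd).clm_comp contDiff_const
      have hS1 : ContDiff ℝ m fun q : WR (m + 1) × P2 => (SW m q.1, q.2) :=
        ((SW m).contDiff.comp contDiff_fst).prodMk contDiff_snd
      have hT1 : ContDiff ℝ m fun q : WR (m + 1) × P2 => (TW' m q.1, q.2) :=
        ((TW' m).contDiff.comp contDiff_fst).prodMk contDiff_snd
      have hS : ContDiff ℝ m fun q : WR (m + 1) × P2 => ev (SW m q.1) q.2 :=
        ContDiff.comp (g := fun q : WR m × P2 => ev q.1 q.2)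
          (f := fun q : WR (m + 1) × P2 => (SW m q.1, q.2)) ih hS1
      have hT : ContDiff ℝ m fun q : WR (m + 1) × P2 => ev (TW' m q.1) q.2 :=
        ContDiff.comp (g := fun q : WR m × P2 => ev q.1 q.2)
          (f := fun q : WR (m + 1) × P2 => (TW' m q.1, q.2)) ih hT1
      exact (hE.add (hS.smul contDiff_const)).add (hT.smul contDiff_const)
    have h3 : ((m + 1 : ℕ) : WithTop ℕ∞) = (m : WithTop ℕ∞) + 1 := by push_cast; rfl
    rw [h3, contDiff_succ_iff_fderiv]
    refine ⟨fun q => (hasFDerivAt_evJ m q).differentiableAt, fun h => by simp at h, ?_⟩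
    rw [h1]
    exact h2

theorem H6 : H6_statement := fun m => ⟨contDiff_evJ m, fun a => per_ev a⟩

lemma contDiff_ev {m : ℕ} (a : WR m) : ContDiff ℝ m (ev a) :=
  (contDiff_evJ m).comp (contDiff_const.prodMk contDiff_id)

theorem H13 : H13_statement := by
  have key : ∀ j m : ℕ, j ≤ m → ∃ C : ℝ, 0 ≤ C ∧ ∀ (a : WR m), ∀ p,
      ‖iteratedFDeriv ℝ j (ev a) p‖ ≤ C * ‖a‖ := by
    intro j
    induction j with
    | zero =>
      intro m _
      refine ⟨1, zero_le_one, fun a p => ?_⟩
      rw [norm_iteratedFDeriv_zero, one_mul]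
      exact abs_ev_le a p
    | succ j ih =>
      intro m hm
      obtain ⟨m, rfl⟩ : ∃ k, m = k + 1 := ⟨m - 1, by omega⟩
      obtain ⟨C, hC, h⟩ := ih m (by omega)
      refine ⟨C * ‖SW m‖ * ‖ContinuousLinearMap.fst ℝ ℝ ℝ‖
        + C * ‖TW' m‖ * ‖ContinuousLinearMap.snd ℝ ℝ ℝ‖, by positivity, fun a p => ?_⟩
      rw [← norm_iteratedFDeriv_fderiv]
      have e1 : fderiv ℝ (ev a) = fun p => (ev (SW m a) p) • (ContinuousLinearMap.fst ℝ ℝ ℝ)
          + (ev (TW' m a) p) • (ContinuousLinearMap.snd ℝ ℝ ℝ) :=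
        funext fun p => (hasFDerivAt_ev1 a p).fderiv
      rw [e1]
      have cS : ContDiff ℝ j (ev (SW m a)) := (contDiff_ev _).of_le (by exact_mod_cast (by omega))
      have cT : ContDiff ℝ j (ev (TW' m a)) := (contDiff_ev _).of_le (by exact_mod_cast (by omega))
      have hfun : ∀ (g : P2 → ℝ) (L : P2 →L[ℝ] ℝ), ContDiff ℝ j g →
          ‖iteratedFDeriv ℝ j (fun p => g p • L) p‖ ≤ ‖iteratedFDeriv ℝ j g p‖ * ‖L‖ := by
        intro g L hg
        have h3 := ContinuousLinearMap.norm_iteratedFDeriv_comp_left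
          ((ContinuousLinearMap.id ℝ ℝ).smulRight L) (hg.contDiffAt (x := p)) (N := j) (n := j) le_rfl
        have h4 : ‖(ContinuousLinearMap.id ℝ ℝ).smulRight L‖ ≤ ‖L‖ := by
          rw [ContinuousLinearMap.norm_smulRight_apply]
          refine mul_le_of_le_one_left (norm_nonneg _) ContinuousLinearMap.norm_id_le
        refine h3.trans ?_
        rw [mul_comm]
        exact mul_le_mul_of_nonneg_left h4 (norm_nonneg _)
      have cS' : ContDiff ℝ j fun p => ev (SW m a) p • ContinuousLinearMap.fst ℝ ℝ ℝ :=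
        cS.smul contDiff_const
      have cT' : ContDiff ℝ j fun p => ev (TW' m a) p • ContinuousLinearMap.snd ℝ ℝ ℝ :=
        cT.smul contDiff_const
      have e2 := iteratedFDeriv_add_apply' (x := p) cS'.contDiffAt cT'.contDiffAt
      rw [e2]
      refine (norm_add_le _ _).trans ?_
      have g1 := (hfun _ (ContinuousLinearMap.fst ℝ ℝ ℝ) cS)
      have g2 := (hfun _ (ContinuousLinearMap.snd ℝ ℝ ℝ) cT)
      have g3 := h (SW m a) p
      have g4 := h (TW' m a) p
      have g5 := (SW m).le_opNorm a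
      have g6 := (TW' m).le_opNorm a
      rw [add_mul]
      refine add_le_add ?_ ?_
      · refine g1.trans ?_
        calc ‖iteratedFDeriv ℝ j (ev (SW m a)) p‖ * ‖ContinuousLinearMap.fst ℝ ℝ ℝ‖
            ≤ (C * (‖SW m‖ * ‖a‖)) * ‖ContinuousLinearMap.fst ℝ ℝ ℝ‖ :=
              mul_le_mul_of_nonneg_right (g3.trans (mul_le_mul_of_nonneg_left g5 hC)) (norm_nonneg _)
          _ = _ := by ring
      · refine g2.trans ?_
        calc ‖iteratedFDeriv ℝ j (ev (TW' m a)) p‖ * ‖ContinuousLinearMap.snd ℝ ℝ ℝ‖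
            ≤ (C * (‖TW' m‖ * ‖a‖)) * ‖ContinuousLinearMap.snd ℝ ℝ ℝ‖ :=
              mul_le_mul_of_nonneg_right (g4.trans (mul_le_mul_of_nonneg_left g6 hC)) (norm_nonneg _)
          _ = _ := by ring
  intro m
  have h1 : ∀ j : ℕ, ∃ C : ℝ, 0 ≤ C ∧ (j ≤ m → ∀ (a : WR m), ∀ p,
      ‖iteratedFDeriv ℝ j (ev a) p‖ ≤ C * ‖a‖) := by
    intro j
    by_cases hj : j ≤ m
    · obtain ⟨C, hC, h⟩ := key j m hj
      exact ⟨C, hC, fun _ => h⟩
    · exact ⟨0, le_rfl, fun h => absurd h hj⟩
  choose C hC h using h1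
  refine ⟨∑ j ∈ Finset.range (m + 1), C j, fun a j hj p => (h j hj a p).trans ?_⟩
  exact mul_le_mul_of_nonneg_right (Finset.single_le_sum (f := C) (fun i _ => hC i)
    (Finset.mem_range.2 (by omega))) (norm_nonneg _)

end Vale.Agent.P247.H720
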