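import Vale.Agent.P247.H720.H.Four

/-!
# Absolutely summable Fourier series with weights
-/

open scoped ContDiff Topology
open Set MeasureTheory Filter Metric

noncomputable section

namespace Vale.Agent.P247.H720

open H74

/-- the weighted sums of the norms are bounded by `B` -/
def SB (m : ℕ) (c : ℤ × ℤ → ℂ) (B : ℝ) : Prop := ∀ S : Finset (ℤ × ℤ), ∑ n ∈ S, wt n ^ m * ‖c n‖ ≤ B

lemma wt_pow_nonneg (m : ℕ) (n : ℤ × ℤ) : 0 ≤ wt n ^ m := pow_nonneg (wt_pos n).le m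

lemma term_nonneg (m : ℕ) (c : ℤ × ℤ → ℂ) (n : ℤ × ℤ) : 0 ≤ wt n ^ m * ‖c n‖ :=
  mul_nonneg (wt_pow_nonneg m n) (norm_nonneg _)

lemma SB.nonneg {m : ℕ} {c : ℤ × ℤ → ℂ} {B : ℝ} (h : SB m c B) : 0 ≤ B := by
  simpa using h ∅

lemma SB.summable {m : ℕ} {c : ℤ × ℤ → ℂ} {B : ℝ} (h : SB m c B) :
    Summable fun n => wt n ^ m * ‖c n‖ :=
  summable_of_sum_le (term_nonneg m c) h

lemma SB.tsum_le {m : ℕ} {c : ℤ × ℤ → ℂ} {B : ℝ} (h : SB m c B) :
    ∑' n, wt n ^ m * ‖c n‖ ≤ B :=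
  Real.tsum_le_of_sum_le (term_nonneg m c) h

lemma SB_of_summable {m : ℕ} {c : ℤ × ℤ → ℂ} (h : Summable fun n => wt n ^ m * ‖c n‖) :
    SB m c (∑' n, wt n ^ m * ‖c n‖) :=
  fun S => h.sum_le_tsum S fun n _ => term_nonneg m c n

lemma SB.mono {m : ℕ} {c : ℤ × ℤ → ℂ} {B B' : ℝ} (h : SB m c B) (hB : B ≤ B') : SB m c B' :=
  fun S => (h S).trans hB

lemma SB.of_le {m m' : ℕ} {c : ℤ × ℤ → ℂ} {B : ℝ} (h : SB m c B) (hm : m' ≤ m) : SB m' c B :=
  fun S => (Finset.sum_le_sum fun n _ =>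
    mul_le_mul_of_nonneg_right (pow_le_pow_right₀ (one_le_wt n) hm) (norm_nonneg _)).trans (h S)

lemma SB.summable_norm {m : ℕ} {c : ℤ × ℤ → ℂ} {B : ℝ} (h : SB m c B) : Summable fun n => ‖c n‖ := by
  have := (h.of_le (Nat.zero_le m)).summable
  simpa using this

lemma SB.add {m : ℕ} {c d : ℤ × ℤ → ℂ} {B B' : ℝ} (h : SB m c B) (h' : SB m d B') :
    SB m (fun n => c n + d n) (B + B') := by
  intro S
  refine le_trans ?_ (add_le_add (h S) (h' S))
  rw [← Finset.sum_add_distrib]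
  refine Finset.sum_le_sum fun n _ => ?_
  rw [← mul_add]
  exact mul_le_mul_of_nonneg_left (norm_add_le _ _) (wt_pow_nonneg m n)

lemma SB.const_mul {m : ℕ} {c : ℤ × ℤ → ℂ} {B : ℝ} (h : SB m c B) (z : ℂ) :
    SB m (fun n => z * c n) (‖z‖ * B) := by
  intro S
  have := mul_le_mul_of_nonneg_left (h S) (norm_nonneg z)
  refine le_trans (le_of_eq ?_) this
  rw [Finset.mul_sum]
  refine Finset.sum_congr rfl fun n _ => ?_
  rw [norm_mul]
  ring

/-! ## the series -/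

/-- the Fourier series -/
def ser (c : ℤ × ℤ → ℂ) (p : P2) : ℂ := ∑' n, c n * ch n p

lemma norm_term (c : ℤ × ℤ → ℂ) (n : ℤ × ℤ) (p : P2) : ‖c n * ch n p‖ = ‖c n‖ := by
  rw [norm_mul, norm_ch, mul_one]

lemma summable_term {c : ℤ × ℤ → ℂ} (h : Summable fun n => ‖c n‖) (p : P2) :
    Summable fun n => c n * ch n p := by
  refine Summable.of_norm ?_
  simp only [norm_term]
  exact h

lemma norm_ser_le {c : ℤ × ℤ → ℂ} (h : Summable fun n => ‖c n‖) (p : P2) :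
    ‖ser c p‖ ≤ ∑' n, ‖c n‖ := by
  have h1 : Summable fun n => ‖c n * ch n p‖ := by simpa only [norm_term] using h
  refine (norm_tsum_le_tsum_norm h1).trans ?_
  simp only [norm_term, le_refl]

lemma SB.norm_ser_le {m : ℕ} {c : ℤ × ℤ → ℂ} {B : ℝ} (h : SB m c B) (p : P2) : ‖ser c p‖ ≤ B := by
  refine (H720.norm_ser_le h.summable_norm p).trans ?_
  have := (h.of_le (Nat.zero_le m)).tsum_le
  simpa using this

lemma continuous_ser {c : ℤ × ℤ → ℂ} (h : Summable fun n => ‖c n‖) : Continuous (ser c) :=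
  continuous_tsum (fun n => continuous_const.mul (ch_continuous n)) h
    (fun n p => (norm_term c n p).le)

lemma per_ser (c : ℤ × ℤ → ℂ) : Per (ser c) := by
  intro a b p
  unfold ser
  refine tsum_congr fun n => ?_
  rw [ch_per n a b p]

lemma fc_ser {c : ℤ × ℤ → ℂ} (h : Summable fun n => ‖c n‖) (k : ℤ × ℤ) : fc (ser c) k = c k := by
  have h1 : HasSum (fun n => ∫ p in Icc (0 : P2) 1, c n * ch n p * ch (-k) p)
      (∫ p in Icc (0 : P2) 1, ∑' n, c n * ch n p * ch (-k) p) := by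
    refine hasSum_integral_of_summable_integral_norm ?_ ?_
    · intro n
      exact integrableOn_sq (g := fun p => c n * ch n p * ch (-k) p)
        (cchm (ccm (c n) (ch_continuous n)) k)
    · refine h.congr fun n => ?_
      simp only [norm_mul, norm_ch, mul_one]
      rw [setIntegral_const, volume_sq, one_smul]
  have h2 : ∀ n, ∫ p in Icc (0 : P2) 1, c n * ch n p * ch (-k) p = if n = k then c n else 0 := by
    intro n
    have : (fun p => c n * ch n p * ch (-k) p) = fun p => c n * (ch n p * ch (-k) p) := by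
      funext p; ring
    rw [this]
    have h3 := fc_ch n k
    unfold fc at h3
    have h4 := mean_mul_left (c n) (fun p => ch n p * ch (-k) p)
    unfold mean at h3 h4
    rw [h4, h3]
    split_ifs <;> simp
  have h3 : fc (ser c) k = ∫ p in Icc (0 : P2) 1, ∑' n, c n * ch n p * ch (-k) p := by
    unfold fc mean ser
    refine setIntegral_congr_fun measurableSet_Icc fun p _ => ?_
    exact tsum_mul_right.symm
  rw [h3, ← h1.tsum_eq]
  simp only [h2]
  rw [tsum_eq_single k]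
  · simp
  · intro n hn
    rw [if_neg hn]

lemma ser_fc {u : P2 → ℂ} (hu : Continuous u) (hp : Per u) (h : Summable fun n => ‖fc u n‖) :
    ser (fc u) = u :=
  eq_of_fc (continuous_ser h) (per_ser _) hu hp fun n => fc_ser h n

/-! ## products -/

/-- convolution -/
def conv (c d : ℤ × ℤ → ℂ) (l : ℤ × ℤ) : ℂ := ∑' n, c n * d (l - n)

/-- the shear of the index set -/
def shear : (ℤ × ℤ) × (ℤ × ℤ) ≃ (ℤ × ℤ) × (ℤ × ℤ) where
  toFun q := (q.2, q.1 - q.2)
  invFun q := (q.1 + q.2, q.1)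
  left_inv q := by simp
  right_inv q := by simp

lemma summable_shear {c d : ℤ × ℤ → ℂ} (hc : Summable fun n => ‖c n‖)
    (hd : Summable fun n => ‖d n‖) :
    Summable fun q : (ℤ × ℤ) × (ℤ × ℤ) => ‖c q.2 * d (q.1 - q.2)‖ := by
  have h1 : Summable fun q : (ℤ × ℤ) × (ℤ × ℤ) => ‖c q.1 * d q.2‖ := by
    have := hc.mul_of_nonneg hd (fun n => norm_nonneg _) (fun n => norm_nonneg _)
    refine this.congr fun q => ?_
    rw [norm_mul]
  exact (shear.summable_iff (f := fun q : (ℤ × ℤ) × (ℤ × ℤ) => ‖c q.1 * d q.2‖)).2 h1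

lemma ser_mul {c d : ℤ × ℤ → ℂ} (hc : Summable fun n => ‖c n‖) (hd : Summable fun n => ‖d n‖)
    (p : P2) : ser c p * ser d p = ser (conv c d) p := by
  have h1 : Summable fun n => ‖c n * ch n p‖ := by simpa only [norm_term] using hc
  have h2 : Summable fun n => ‖d n * ch n p‖ := by simpa only [norm_term] using hd
  unfold ser
  rw [tsum_mul_tsum_of_summable_norm h1 h2]
  rw [← shear.tsum_eq (fun z : (ℤ × ℤ) × (ℤ × ℤ) => c z.1 * ch z.1 p * (d z.2 * ch z.2 p))]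
  have h3 : (fun q : (ℤ × ℤ) × (ℤ × ℤ) => c (shear q).1 * ch (shear q).1 p
      * (d (shear q).2 * ch (shear q).2 p)) = fun q => c q.2 * d (q.1 - q.2) * ch q.1 p := by
    funext q
    change c q.2 * ch q.2 p * (d (q.1 - q.2) * ch (q.1 - q.2) p) = _
    have : ch q.1 p = ch q.2 p * ch (q.1 - q.2) p := by
      rw [← ch_add]
      congr 1
      simp
    rw [this]
    ring
  rw [h3]
  have h4 : Summable fun q : (ℤ × ℤ) × (ℤ × ℤ) => c q.2 * d (q.1 - q.2) * ch q.1 p := by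
    refine Summable.of_norm ?_
    simp only [norm_mul _ (ch _ _), norm_ch, mul_one]
    exact summable_shear hc hd
  rw [h4.tsum_prod]
  refine tsum_congr fun l => ?_
  exact tsum_mul_right (f := fun n => c n * d (l - n)) (a := ch l p)

lemma SB_conv {m : ℕ} {c d : ℤ × ℤ → ℂ} {B B' : ℝ} (hc : SB m c B) (hd : SB m d B') :
    SB m (conv c d) (B * B') := by
  intro S
  have hsn := fun l => ((summable_shear hc.summable_norm hd.summable_norm).prod_factor l)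
  -- pointwise bound
  have h1 : ∀ l, wt l ^ m * ‖conv c d l‖
      ≤ ∑' n, (wt n ^ m * ‖c n‖) * (wt (l - n) ^ m * ‖d (l - n)‖) := by
    intro l
    have hB : ∀ n, wt n ^ m * ‖d n‖ ≤ B' := fun n => by
      simpa using hd {n}
    have hs : Summable fun n => (wt n ^ m * ‖c n‖) * (wt (l - n) ^ m * ‖d (l - n)‖) := by
      refine Summable.of_nonneg_of_le (fun n => mul_nonneg (term_nonneg m c n)
        (term_nonneg m d (l - n))) (fun n => mul_le_mul_of_nonneg_left (hB (l - n))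
          (term_nonneg m c n)) (hc.summable.mul_right B')
    have h2 : ‖conv c d l‖ ≤ ∑' n, ‖c n * d (l - n)‖ := norm_tsum_le_tsum_norm (hsn l)
    refine (mul_le_mul_of_nonneg_left h2 (wt_pow_nonneg m l)).trans ?_
    rw [← tsum_mul_left]
    refine Summable.tsum_le_tsum (fun n => ?_) ((hsn l).mul_left _) hs
    rw [norm_mul]
    have h3 : wt l ^ m ≤ wt n ^ m * wt (l - n) ^ m := by
      rw [← mul_pow]
      refine pow_le_pow_left₀ (wt_pos l).le ?_ m
      have := wt_add_le n (l - n)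
      rwa [add_sub_cancel] at this
    calc wt l ^ m * (‖c n‖ * ‖d (l - n)‖)
        ≤ (wt n ^ m * wt (l - n) ^ m) * (‖c n‖ * ‖d (l - n)‖) :=
          mul_le_mul_of_nonneg_right h3 (by positivity)
      _ = _ := by ring
  refine (Finset.sum_le_sum fun l _ => h1 l).trans ?_
  have hB : ∀ n, wt n ^ m * ‖d n‖ ≤ B' := fun n => by
    simpa using hd {n}
  have hs : ∀ l, Summable fun n => (wt n ^ m * ‖c n‖) * (wt (l - n) ^ m * ‖d (l - n)‖) := by
    intro l
    refine Summable.of_nonneg_of_le (fun n => mul_nonneg (term_nonneg m c n)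
        (term_nonneg m d (l - n))) (fun n => mul_le_mul_of_nonneg_left (hB (l - n))
          (term_nonneg m c n)) (hc.summable.mul_right B')
  rw [← Summable.tsum_finsetSum fun l _ => hs l]
  have h4 : ∀ n, ∑ l ∈ S, (wt n ^ m * ‖c n‖) * (wt (l - n) ^ m * ‖d (l - n)‖)
      ≤ (wt n ^ m * ‖c n‖) * B' := by
    intro n
    rw [← Finset.mul_sum]
    refine mul_le_mul_of_nonneg_left ?_ (term_nonneg m c n)
    have := hd (S.map (Equiv.subRight n).toEmbedding)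
    rwa [Finset.sum_map] at this
  refine (Summable.tsum_le_tsum h4 (summable_sum fun l _ => hs l) (hc.summable.mul_right B')).trans ?_
  rw [tsum_mul_right]
  exact mul_le_mul_of_nonneg_right hc.tsum_le hd.nonneg

/-! ## derivatives -/

lemma norm_chL_le (n : ℤ × ℤ) : ‖chL n‖ ≤ 2 * Real.pi * wt n := by
  have h0 : 0 ≤ 2 * Real.pi * wt n := by have := wt_pos n; positivity
  refine ContinuousLinearMap.opNorm_le_bound _ h0 fun p => ?_
  rw [chL_apply, norm_mul]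
  have h1 : ‖(2 * Real.pi * Complex.I : ℂ)‖ = 2 * Real.pi := by
    simp [abs_of_pos Real.pi_pos]
  have h1' : (0 : ℝ) ≤ 2 * Real.pi := by positivity
  rw [h1, mul_assoc (2 * Real.pi)]
  refine mul_le_mul_of_nonneg_left ?_ h1'
  refine (norm_add_le _ _).trans ?_
  rw [norm_mul, norm_mul]
  simp only [Complex.norm_intCast, Complex.norm_real]
  have h2 : ‖p.1‖ ≤ ‖p‖ := norm_fst_le p
  have h3 : ‖p.2‖ ≤ ‖p‖ := norm_snd_le p
  have h4 := abs_nonneg (n.1 : ℝ)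
  have h5 := abs_nonneg (n.2 : ℝ)
  unfold wt
  nlinarith [norm_nonneg p, mul_le_mul_of_nonneg_left h2 h4, mul_le_mul_of_nonneg_left h3 h5]

lemma hasFDerivAt_ser {c : ℤ × ℤ → ℂ} (h : Summable fun n => wt n ^ 1 * ‖c n‖) (p : P2) :
    HasFDerivAt (ser c) (∑' n, (c n * ch n p) • chL n) p := by
  have h1 : Summable fun n => 2 * Real.pi * (wt n ^ 1 * ‖c n‖) := h.mul_left _
  refine hasFDerivAt_tsum (f := fun n p => c n * ch n p)
    (f' := fun n p => (c n * ch n p) • chL n) h1 (fun n q => ?_) (fun n q => ?_) (x₀ := p) ?_ p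
  · have := (hasFDerivAt_ch n q).const_mul (c n)
    rwa [smul_smul] at this
  · rw [norm_smul, norm_term, pow_one]
    have := norm_chL_le n
    nlinarith [norm_nonneg (c n)]
  · refine summable_term (SB.summable_norm (SB_of_summable h)) p

/-- multiplication by `2πi n₁`, `2πi n₂` -/
def dsc (c : ℤ × ℤ → ℂ) (n : ℤ × ℤ) : ℂ := 2 * Real.pi * Complex.I * n.1 * c n
def dtc (c : ℤ × ℤ → ℂ) (n : ℤ × ℤ) : ℂ := 2 * Real.pi * Complex.I * n.2 * c n

lemma norm_two_pi_I : ‖(2 * Real.pi * Complex.I : ℂ)‖ = 2 * Real.pi := by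
  simp [abs_of_pos Real.pi_pos]

lemma norm_tpi_mul (a : ℤ) (z : ℂ) :
    ‖2 * Real.pi * Complex.I * a * z‖ = 2 * Real.pi * (|(a : ℝ)| * ‖z‖) := by
  rw [norm_mul, norm_mul, norm_two_pi_I, Complex.norm_intCast, mul_assoc]

lemma norm_dsc_le (c : ℤ × ℤ → ℂ) (n : ℤ × ℤ) : ‖dsc c n‖ ≤ 2 * Real.pi * (wt n * ‖c n‖) := by
  unfold dsc
  rw [norm_mul, norm_mul, norm_two_pi_I, Complex.norm_intCast, mul_assoc]
  refine mul_le_mul_of_nonneg_left (mul_le_mul_of_nonneg_right ?_ (norm_nonneg _)) (by positivity)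
  unfold wt
  linarith [abs_nonneg (n.2 : ℝ)]

lemma norm_dtc_le (c : ℤ × ℤ → ℂ) (n : ℤ × ℤ) : ‖dtc c n‖ ≤ 2 * Real.pi * (wt n * ‖c n‖) := by
  unfold dtc
  rw [norm_mul, norm_mul, norm_two_pi_I, Complex.norm_intCast, mul_assoc]
  refine mul_le_mul_of_nonneg_left (mul_le_mul_of_nonneg_right ?_ (norm_nonneg _)) (by positivity)
  unfold wt
  linarith [abs_nonneg (n.1 : ℝ)]

lemma SB_dsc {m : ℕ} {c : ℤ × ℤ → ℂ} {B : ℝ} (h : SB (m + 1) c B) : SB m (dsc c) (2 * Real.pi * B) := by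
  intro S
  refine (Finset.sum_le_sum fun n _ => mul_le_mul_of_nonneg_left (norm_dsc_le c n)
    (wt_pow_nonneg m n)).trans ?_
  refine le_trans (le_of_eq ?_) (mul_le_mul_of_nonneg_left (h S) (by positivity : 0 ≤ 2 * Real.pi))
  rw [Finset.mul_sum]
  refine Finset.sum_congr rfl fun n _ => ?_
  ring

lemma SB_dtc {m : ℕ} {c : ℤ × ℤ → ℂ} {B : ℝ} (h : SB (m + 1) c B) : SB m (dtc c) (2 * Real.pi * B) := by
  intro S
  refine (Finset.sum_le_sum fun n _ => mul_le_mul_of_nonneg_left (norm_dtc_le c n)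
    (wt_pow_nonneg m n)).trans ?_
  refine le_trans (le_of_eq ?_) (mul_le_mul_of_nonneg_left (h S) (by positivity : 0 ≤ 2 * Real.pi))
  rw [Finset.mul_sum]
  refine Finset.sum_congr rfl fun n _ => ?_
  ring

lemma summable_deriv {c : ℤ × ℤ → ℂ} (h : Summable fun n => wt n ^ 1 * ‖c n‖) (p : P2) :
    Summable fun n => (c n * ch n p) • chL n := by
  refine Summable.of_norm_bounded (h.mul_left (2 * Real.pi)) fun n => ?_
  rw [norm_smul, norm_term, pow_one]
  have := norm_chL_le n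
  nlinarith [norm_nonneg (c n)]

lemma ds_ser {c : ℤ × ℤ → ℂ} (h : Summable fun n => wt n ^ 1 * ‖c n‖) : ds (ser c) = ser (dsc c) := by
  funext p
  unfold ds ser
  have h0 := (hasFDerivAt_ser h p).fderiv
  unfold ser at h0
  rw [h0]
  have h1 := (ContinuousLinearMap.apply ℝ ℂ ((1, 0) : P2)).map_tsum (summable_deriv h p)
  simp only [ContinuousLinearMap.apply_apply] at h1
  rw [h1]
  refine tsum_congr fun n => ?_
  rw [ContinuousLinearMap.smul_apply, chL_apply, smul_eq_mul]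
  unfold dsc
  simp only [Complex.ofReal_one, Complex.ofReal_zero]
  ring

lemma dt_ser {c : ℤ × ℤ → ℂ} (h : Summable fun n => wt n ^ 1 * ‖c n‖) : dt (ser c) = ser (dtc c) := by
  funext p
  unfold dt ser
  have h0 := (hasFDerivAt_ser h p).fderiv
  unfold ser at h0
  rw [h0]
  have h1 := (ContinuousLinearMap.apply ℝ ℂ ((0, 1) : P2)).map_tsum (summable_deriv h p)
  simp only [ContinuousLinearMap.apply_apply] at h1
  rw [h1]
  refine tsum_congr fun n => ?_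
  rw [ContinuousLinearMap.smul_apply, chL_apply, smul_eq_mul]
  unfold dtc
  simp only [Complex.ofReal_one, Complex.ofReal_zero]
  ring

/-- raising the weight -/
lemma SB_succ {m : ℕ} {u : P2 → ℂ} (hu : ContDiff ℝ 1 u) (hp : Per u) {B₀ B₁ B₂ : ℝ}
    (h₀ : SB m (fc u) B₀) (h₁ : SB m (fc (ds u)) B₁) (h₂ : SB m (fc (dt u)) B₂) :
    SB (m + 1) (fc u) (B₀ + B₁ + B₂) := by
  intro S
  refine le_trans ?_ (add_le_add (add_le_add (h₀ S) (h₁ S)) (h₂ S))
  rw [← Finset.sum_add_distrib, ← Finset.sum_add_distrib]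
  refine Finset.sum_le_sum fun n _ => ?_
  rw [fc_ds hu hp, fc_dt hu hp, pow_succ]
  rw [norm_tpi_mul, norm_tpi_mul]
  have hw := wt_pow_nonneg m n
  have h3 : (1 : ℝ) ≤ 2 * Real.pi := by
    have := Real.pi_gt_three
    linarith
  have h4 : |(n.1 : ℝ)| * ‖fc u n‖ ≤ 2 * Real.pi * (|(n.1 : ℝ)| * ‖fc u n‖) :=
    le_mul_of_one_le_left (by positivity) h3
  have h5 : |(n.2 : ℝ)| * ‖fc u n‖ ≤ 2 * Real.pi * (|(n.2 : ℝ)| * ‖fc u n‖) :=
    le_mul_of_one_le_left (by positivity) h3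
  calc wt n ^ m * wt n * ‖fc u n‖
      = wt n ^ m * (‖fc u n‖ + |(n.1 : ℝ)| * ‖fc u n‖ + |(n.2 : ℝ)| * ‖fc u n‖) := by
        unfold wt; ring
    _ ≤ wt n ^ m * (‖fc u n‖ + 2 * Real.pi * (|(n.1 : ℝ)| * ‖fc u n‖)
        + 2 * Real.pi * (|(n.2 : ℝ)| * ‖fc u n‖)) := by
        refine mul_le_mul_of_nonneg_left ?_ hw
        linarith
    _ = _ := by ring

/-- the constant of the next lemma -/
def C0 : ℝ := 9 * Real.sqrt (∑' n : ℤ × ℤ, (wt n ^ 4)⁻¹)

lemma C0_nonneg : 0 ≤ C0 := by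
  unfold C0
  positivity

/-- functions of class `C²` have absolutely summable Fourier coefficients -/
lemma SB_zero_of_C2 {u : P2 → ℂ} (hu : ContDiff ℝ 2 u) (hp : Per u) {B : ℝ} (h₀ : ∀ p, ‖u p‖ ≤ B)
    (h₁ : ∀ p, ‖ds (ds u) p‖ ≤ B) (h₂ : ∀ p, ‖dt (dt u) p‖ ≤ B) : SB 0 (fc u) (C0 * B) := by
  intro S
  have hB : 0 ≤ B := (norm_nonneg _).trans (h₀ 0)
  have hu1 : ContDiff ℝ 1 u := hu.of_le one_le_two
  have hds : ContDiff ℝ 1 (ds u) := contDiff_ds (n := 1) hu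
  have hdt : ContDiff ℝ 1 (dt u) := contDiff_dt (n := 1) hu
  have e1 : ∀ n : ℤ × ℤ, ‖fc (ds (ds u)) n‖ = (2 * Real.pi) ^ 2 * (|(n.1 : ℝ)| ^ 2 * ‖fc u n‖) := by
    intro n
    rw [fc_ds hds (per_ds hp), fc_ds hu1 hp, norm_tpi_mul, norm_tpi_mul]
    ring
  have e2 : ∀ n : ℤ × ℤ, ‖fc (dt (dt u)) n‖ = (2 * Real.pi) ^ 2 * (|(n.2 : ℝ)| ^ 2 * ‖fc u n‖) := by
    intro n
    rw [fc_dt hdt (per_dt hp), fc_dt hu1 hp, norm_tpi_mul, norm_tpi_mul]
    ring
  have b0 := sum_sq_fc_le hu.continuous h₀ S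
  have b1 := sum_sq_fc_le (continuous_ds hds) h₁ S
  have b2 := sum_sq_fc_le (continuous_dt hdt) h₂ S
  have h3 : (1 : ℝ) ≤ 2 * Real.pi := by
    have := Real.pi_gt_three
    linarith
  have key : ∑ n ∈ S, (wt n ^ 2 * ‖fc u n‖) ^ 2 ≤ (9 * B) ^ 2 := by
    have hpt : ∀ n ∈ S, (wt n ^ 2 * ‖fc u n‖) ^ 2
        ≤ 27 * (‖fc u n‖ ^ 2 + ‖fc (ds (ds u)) n‖ ^ 2 + ‖fc (dt (dt u)) n‖ ^ 2) := by
      intro n _
      rw [e1, e2]
      set x := |(n.1 : ℝ)| with hx
      set y := |(n.2 : ℝ)| with hy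
      set z := ‖fc u n‖ with hz
      have hx0 : 0 ≤ x := abs_nonneg _
      have hy0 : 0 ≤ y := abs_nonneg _
      have hz0 : 0 ≤ z := norm_nonneg _
      have hw : wt n ^ 4 ≤ 27 * (1 + x ^ 4 + y ^ 4) := by
        unfold wt
        rw [← hx, ← hy]
        have a1 : (1 + x + y) ^ 2 ≤ 3 * (1 + x ^ 2 + y ^ 2) := by
          nlinarith [sq_nonneg (1 - x), sq_nonneg (1 - y), sq_nonneg (x - y)]
        have a2 : (1 + x ^ 2 + y ^ 2) ^ 2 ≤ 3 * (1 + x ^ 4 + y ^ 4) := by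
          nlinarith [sq_nonneg (1 - x ^ 2), sq_nonneg (1 - y ^ 2), sq_nonneg (x ^ 2 - y ^ 2)]
        calc (1 + x + y) ^ 4 = ((1 + x + y) ^ 2) ^ 2 := by ring
          _ ≤ (3 * (1 + x ^ 2 + y ^ 2)) ^ 2 := pow_le_pow_left₀ (by positivity) a1 2
          _ = 9 * (1 + x ^ 2 + y ^ 2) ^ 2 := by ring
          _ ≤ 27 * (1 + x ^ 4 + y ^ 4) := by linarith
      have hq : (1 : ℝ) ≤ (2 * Real.pi) ^ 4 := one_le_pow₀ h3
      have hxx : x ^ 4 * z ^ 2 ≤ (2 * Real.pi) ^ 4 * (x ^ 4 * z ^ 2) :=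
        le_mul_of_one_le_left (by positivity) hq
      have hyy : y ^ 4 * z ^ 2 ≤ (2 * Real.pi) ^ 4 * (y ^ 4 * z ^ 2) :=
        le_mul_of_one_le_left (by positivity) hq
      calc (wt n ^ 2 * z) ^ 2 = wt n ^ 4 * z ^ 2 := by ring
        _ ≤ 27 * (1 + x ^ 4 + y ^ 4) * z ^ 2 := mul_le_mul_of_nonneg_right hw (by positivity)
        _ = 27 * (z ^ 2 + x ^ 4 * z ^ 2 + y ^ 4 * z ^ 2) := by ring
        _ ≤ 27 * (z ^ 2 + (2 * Real.pi) ^ 4 * (x ^ 4 * z ^ 2)
            + (2 * Real.pi) ^ 4 * (y ^ 4 * z ^ 2)) := by linarith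
        _ = _ := by ring
    refine (Finset.sum_le_sum hpt).trans ?_
    rw [← Finset.mul_sum, Finset.sum_add_distrib, Finset.sum_add_distrib]
    nlinarith
  have cs := Finset.sum_mul_sq_le_sq_mul_sq S (fun n => (wt n ^ 2)⁻¹)
    (fun n => wt n ^ 2 * ‖fc u n‖)
  have e3 : ∑ n ∈ S, (wt n ^ 2)⁻¹ * (wt n ^ 2 * ‖fc u n‖) = ∑ n ∈ S, wt n ^ 0 * ‖fc u n‖ := by
    refine Finset.sum_congr rfl fun n _ => ?_
    have := (wt_pos n).ne'
    field_simp
  have e4 : ∑ n ∈ S, ((wt n ^ 2)⁻¹) ^ 2 ≤ ∑' n : ℤ × ℤ, (wt n ^ 4)⁻¹ := by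
    refine le_trans (le_of_eq ?_) (summable_wt.sum_le_tsum S fun n _ => by
      have := wt_pos n; positivity)
    refine Finset.sum_congr rfl fun n _ => ?_
    rw [← inv_pow, ← pow_mul]
    simp [inv_pow]
  rw [e3] at cs
  set T := ∑' n : ℤ × ℤ, (wt n ^ 4)⁻¹ with hT
  have hT0 : 0 ≤ T := tsum_nonneg fun n => by have := wt_pos n; positivity
  have h5 : (∑ n ∈ S, wt n ^ 0 * ‖fc u n‖) ^ 2 ≤ (C0 * B) ^ 2 := by
    refine cs.trans ?_
    have : (C0 * B) ^ 2 = T * (9 * B) ^ 2 := by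
      unfold C0
      rw [← hT]
      calc (9 * Real.sqrt T * B) ^ 2 = (Real.sqrt T) ^ 2 * (9 * B) ^ 2 := by ring
        _ = _ := by rw [Real.sq_sqrt hT0]
    rw [this]
    exact mul_le_mul e4 key (Finset.sum_nonneg fun n _ => by positivity) hT0
  exact (pow_le_pow_iff_left₀ (Finset.sum_nonneg fun n _ => term_nonneg 0 _ n)
    (mul_nonneg C0_nonneg hB) two_ne_zero).1 h5

end Vale.Agent.P247.H720
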