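import Vale.Agent.P247.H720.H.Wn

/-!
# The spaces `WR m`
-/

open scoped ContDiff Topology
open Set MeasureTheory Filter Metric

noncomputable section

namespace Vale.Agent.P247.H720

open H74

variable {m : ℕ}

/-- underlying family of an element of `WR m` -/
def un (a : WR m) : lp (fun _ : ℤ × ℤ => ℂ) 1 := (show realSub from a).1

lemma un_real (a : WR m) (n : ℤ × ℤ) :
    (un a : ℤ × ℤ → ℂ) (-n) = (starRingEnd ℂ) ((un a : ℤ × ℤ → ℂ) n) :=
  (show realSub from a).2 n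

lemma norm_un (a : WR m) : ‖un a‖ = ‖a‖ := rfl

lemma un_add (a b : WR m) : un (a + b) = un a + un b := rfl
lemma un_sub (a b : WR m) : un (a - b) = un a - un b := rfl
lemma un_smul (c : ℝ) (a : WR m) : un (c • a) = c • un a := rfl
lemma un_zero : un (0 : WR m) = 0 := rfl

lemma cf_eq (a : WR m) (n : ℤ × ℤ) : cf a n = (un a : ℤ × ℤ → ℂ) n / ((wt n : ℝ) : ℂ) ^ m := rfl

lemma wtC_ne (n : ℤ × ℤ) : ((wt n : ℝ) : ℂ) ^ m ≠ 0 := by
  refine pow_ne_zero _ ?_
  exact_mod_cast (wt_pos n).ne'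

lemma un_eq (a : WR m) (n : ℤ × ℤ) : (un a : ℤ × ℤ → ℂ) n = cf a n * ((wt n : ℝ) : ℂ) ^ m := by
  rw [cf_eq, div_mul_cancel₀ _ (wtC_ne n)]

lemma norm_un_apply (a : WR m) (n : ℤ × ℤ) : ‖(un a : ℤ × ℤ → ℂ) n‖ = wt n ^ m * ‖cf a n‖ := by
  rw [un_eq, norm_mul, norm_pow, Complex.norm_real, Real.norm_of_nonneg (wt_pos n).le, mul_comm]

lemma norm_eq (a : WR m) : ‖a‖ = ∑' n, wt n ^ m * ‖cf a n‖ := by
  rw [← norm_un, lp.norm_eq_tsum_rpow (by simp)]
  simp only [ENNReal.toReal_one, Real.rpow_one, div_one, ne_eq, one_ne_zero, not_false_eq_true]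
  exact tsum_congr fun n => norm_un_apply a n

lemma summable_cf (a : WR m) : Summable fun n => wt n ^ m * ‖cf a n‖ := by
  have h1 := lp.memℓp (un a)
  have h2 := h1.summable (by simp)
  simp only [ENNReal.toReal_one, Real.rpow_one] at h2
  exact h2.congr fun n => norm_un_apply a n

lemma SB_cf (a : WR m) : SB m (cf a) ‖a‖ := by
  rw [norm_eq]
  exact SB_of_summable (summable_cf a)

lemma norm_le_of_SB {a : WR m} {B : ℝ} (h : SB m (cf a) B) : ‖a‖ ≤ B := by
  rw [norm_eq]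
  exact h.tsum_le

lemma cf_neg' (a : WR m) (n : ℤ × ℤ) : cf a (-n) = (starRingEnd ℂ) (cf a n) := by
  rw [cf_eq, cf_eq, un_real, wt_neg, map_div₀, map_pow, Complex.conj_ofReal]

lemma cf_add (a b : WR m) (n : ℤ × ℤ) : cf (a + b) n = cf a n + cf b n := by
  rw [cf_eq, cf_eq, cf_eq, un_add, lp.coeFn_add, Pi.add_apply, add_div]

lemma cf_sub (a b : WR m) (n : ℤ × ℤ) : cf (a - b) n = cf a n - cf b n := by
  rw [cf_eq, cf_eq, cf_eq, un_sub, lp.coeFn_sub, Pi.sub_apply, sub_div]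

lemma cf_smul (c : ℝ) (a : WR m) (n : ℤ × ℤ) : cf (c • a) n = c * cf a n := by
  rw [cf_eq, cf_eq, un_smul, lp.coeFn_smul, Pi.smul_apply, Complex.real_smul, mul_div_assoc]

lemma cf_zero (n : ℤ × ℤ) : cf (0 : WR m) n = 0 := by
  rw [cf_eq, un_zero, lp.coeFn_zero, Pi.zero_apply, zero_div]

lemma ext_cf {a b : WR m} (h : ∀ n, cf a n = cf b n) : a = b := by
  have h1 : un a = un b := by
    apply lp.ext
    funext n
    rw [un_eq, un_eq, h n]
  exact Subtype.ext h1

/-- the element with given Fourier coefficients -/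
def mkW (m : ℕ) (c : ℤ × ℤ → ℂ) (hs : Summable fun n => wt n ^ m * ‖c n‖)
    (hr : ∀ n, c (-n) = (starRingEnd ℂ) (c n)) : WR m :=
  (⟨⟨fun n => c n * ((wt n : ℝ) : ℂ) ^ m, by
    refine memℓp_gen ?_
    simp only [ENNReal.toReal_one, Real.rpow_one]
    refine hs.congr fun n => ?_
    rw [norm_mul, norm_pow, Complex.norm_real, Real.norm_of_nonneg (wt_pos n).le, mul_comm]⟩, by
    intro n
    change c (-n) * ((wt (-n) : ℝ) : ℂ) ^ m = (starRingEnd ℂ) (c n * ((wt n : ℝ) : ℂ) ^ m)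
    rw [hr, wt_neg, map_mul, map_pow, Complex.conj_ofReal]⟩ : realSub)

lemma cf_mkW {c : ℤ × ℤ → ℂ} (hs : Summable fun n => wt n ^ m * ‖c n‖)
    (hr : ∀ n, c (-n) = (starRingEnd ℂ) (c n)) (n : ℤ × ℤ) : cf (mkW m c hs hr) n = c n := by
  rw [cf_eq]
  exact mul_div_cancel_right₀ _ (wtC_ne n)

lemma cf_mkW' {c : ℤ × ℤ → ℂ} (hs : Summable fun n => wt n ^ m * ‖c n‖)
    (hr : ∀ n, c (-n) = (starRingEnd ℂ) (c n)) : cf (mkW m c hs hr) = c :=
  funext fun n => cf_mkW hs hr n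

/-- Fourier multipliers, the function -/
def mulF (m m' : ℕ) (μ : ℤ × ℤ → ℂ) (C : ℝ) (hμ : ∀ n, wt n ^ m' * ‖μ n‖ ≤ C * wt n ^ m)
    (hr : ∀ n, μ (-n) = (starRingEnd ℂ) (μ n)) (a : WR m) : WR m' :=
  mkW m' (fun n => μ n * cf a n) (by
    refine Summable.of_nonneg_of_le (fun n => term_nonneg m' (fun n => μ n * cf a n) n)
      (fun n => ?_) ((summable_cf a).mul_left C)
    rw [norm_mul, ← mul_assoc, ← mul_assoc]
    exact mul_le_mul_of_nonneg_right (hμ n) (norm_nonneg _)) (fun n => by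
      rw [hr, cf_neg', map_mul])

lemma cf_mulF {m m' : ℕ} {μ : ℤ × ℤ → ℂ} {C : ℝ} (hμ : ∀ n, wt n ^ m' * ‖μ n‖ ≤ C * wt n ^ m)
    (hr : ∀ n, μ (-n) = (starRingEnd ℂ) (μ n)) (a : WR m) (n : ℤ × ℤ) :
    cf (mulF m m' μ C hμ hr a) n = μ n * cf a n :=
  cf_mkW (c := fun n => μ n * cf a n) _ _ n

lemma mult_nonneg {m m' : ℕ} {μ : ℤ × ℤ → ℂ} {C : ℝ}
    (hμ : ∀ n, wt n ^ m' * ‖μ n‖ ≤ C * wt n ^ m) : 0 ≤ C := by
  have h1 := hμ 0
  have h2 : 0 < wt 0 ^ m := pow_pos (wt_pos 0) m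
  have h3 : 0 ≤ wt 0 ^ m' * ‖μ 0‖ := term_nonneg m' μ 0
  by_contra hC
  push Not at hC
  nlinarith

lemma norm_mulF_le {m m' : ℕ} {μ : ℤ × ℤ → ℂ} {C : ℝ}
    (hμ : ∀ n, wt n ^ m' * ‖μ n‖ ≤ C * wt n ^ m)
    (hr : ∀ n, μ (-n) = (starRingEnd ℂ) (μ n)) (a : WR m) :
    ‖mulF m m' μ C hμ hr a‖ ≤ C * ‖a‖ := by
  refine norm_le_of_SB ?_
  intro S
  refine le_trans (Finset.sum_le_sum fun n _ => ?_)
      (le_trans (le_of_eq (Finset.mul_sum _ _ _).symm)
        (mul_le_mul_of_nonneg_left (SB_cf a S) (mult_nonneg hμ)) :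
        ∑ n ∈ S, C * (wt n ^ m * ‖cf a n‖) ≤ C * ‖a‖)
  rw [cf_mulF, norm_mul, ← mul_assoc, ← mul_assoc]
  exact mul_le_mul_of_nonneg_right (hμ n) (norm_nonneg _)

/-- Fourier multipliers -/
def mulW (m m' : ℕ) (μ : ℤ × ℤ → ℂ) (C : ℝ) (hμ : ∀ n, wt n ^ m' * ‖μ n‖ ≤ C * wt n ^ m)
    (hr : ∀ n, μ (-n) = (starRingEnd ℂ) (μ n)) : WR m →L[ℝ] WR m' :=
  LinearMap.mkContinuous
    { toFun := mulF m m' μ C hμ hr
      map_add' := fun a b => ext_cf fun n => by
        rw [cf_add, cf_mulF, cf_mulF, cf_mulF, cf_add, mul_add]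
      map_smul' := fun c a => ext_cf fun n => by
        rw [RingHom.id_apply, cf_smul, cf_mulF, cf_mulF, cf_smul]
        ring } C (fun a => norm_mulF_le hμ hr a)

lemma cf_mulW {m m' : ℕ} {μ : ℤ × ℤ → ℂ} {C : ℝ} (hμ : ∀ n, wt n ^ m' * ‖μ n‖ ≤ C * wt n ^ m)
    (hr : ∀ n, μ (-n) = (starRingEnd ℂ) (μ n)) (a : WR m) (n : ℤ × ℤ) :
    cf (mulW m m' μ C hμ hr a) n = μ n * cf a n := cf_mulF hμ hr a n

lemma norm_mulW_apply_le {m m' : ℕ} {μ : ℤ × ℤ → ℂ} {C : ℝ}
    (hμ : ∀ n, wt n ^ m' * ‖μ n‖ ≤ C * wt n ^ m)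
    (hr : ∀ n, μ (-n) = (starRingEnd ℂ) (μ n)) (a : WR m) :
    ‖mulW m m' μ C hμ hr a‖ ≤ C * ‖a‖ := norm_mulF_le hμ hr a

/-! ## evaluation -/

lemma summable_norm_cf (a : WR m) : Summable fun n => ‖cf a n‖ := (SB_cf a).summable_norm

lemma ev_eq (a : WR m) (p : P2) : ev a p = (ser (cf a) p).re := by
  unfold ev ser
  rw [Complex.re_tsum (summable_term (summable_norm_cf a) p)]

lemma ser_im (a : WR m) (p : P2) : (ser (cf a) p).im = 0 := by
  have h1 : (starRingEnd ℂ) (ser (cf a) p) = ser (cf a) p := by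
    unfold ser
    rw [Complex.conj_tsum]
    rw [← (Equiv.neg (ℤ × ℤ)).tsum_eq (fun n => cf a n * ch n p)]
    refine tsum_congr fun n => ?_
    rw [map_mul, ← ch_neg, ← cf_neg']
    rfl
  exact Complex.conj_eq_iff_im.1 h1

lemma ofReal_ev (a : WR m) (p : P2) : ((ev a p : ℝ) : ℂ) = ser (cf a) p := by
  apply Complex.ext
  · rw [Complex.ofReal_re, ev_eq]
  · rw [Complex.ofReal_im, ser_im]

lemma continuous_ev (a : WR m) : Continuous (ev a) := by
  have : ev a = fun p => (ser (cf a) p).re := funext (ev_eq a)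
  rw [this]
  exact Complex.continuous_re.comp (continuous_ser (summable_norm_cf a))

lemma per_ev (a : WR m) : Per (ev a) := by
  intro k l p
  rw [ev_eq, ev_eq, per_ser (cf a) k l p]

lemma fc_ev (a : WR m) : fc (fun p => ((ev a p : ℝ) : ℂ)) = cf a := by
  funext n
  have : (fun p => ((ev a p : ℝ) : ℂ)) = ser (cf a) := funext (ofReal_ev a)
  rw [this, fc_ser (summable_norm_cf a)]

lemma abs_ev_le (a : WR m) (p : P2) : |ev a p| ≤ ‖a‖ := by
  rw [ev_eq]
  exact (Complex.abs_re_le_norm _).trans ((SB_cf a).norm_ser_le p)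

theorem H2 : H2_statement := by
  intro m a b h
  refine ext_cf fun n => ?_
  rw [← fc_ev a, ← fc_ev b, h]

lemma ev_add (a b : WR m) (p : P2) : ev (a + b) p = ev a p + ev b p := by
  rw [← Complex.ofReal_inj, Complex.ofReal_add, ofReal_ev, ofReal_ev, ofReal_ev]
  unfold ser
  rw [← (summable_term (summable_norm_cf a) p).tsum_add (summable_term (summable_norm_cf b) p)]
  refine tsum_congr fun n => ?_
  rw [cf_add, add_mul]

lemma ev_smul (c : ℝ) (a : WR m) (p : P2) : ev (c • a) p = c * ev a p := by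
  rw [← Complex.ofReal_inj, Complex.ofReal_mul, ofReal_ev, ofReal_ev]
  unfold ser
  rw [← tsum_mul_left]
  refine tsum_congr fun n => ?_
  rw [cf_smul, mul_assoc]

lemma ev_sub (a b : WR m) (p : P2) : ev (a - b) p = ev a p - ev b p := by
  have h := ev_add (a - b) b p
  rw [sub_add_cancel] at h
  linarith

lemma ev_zero (p : P2) : ev (0 : WR m) p = 0 := by
  have h := ev_smul (0 : ℝ) (0 : WR m) p
  rwa [zero_smul, zero_mul] at h

/-- functions with summable coefficients belong to `WR m` -/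
lemma exists_of_SB {u : P2 → ℝ} (hu : Continuous u) (hp : Per u) {B : ℝ}
    (h : SB m (fc fun p => ((u p : ℝ) : ℂ)) B) : ∃ a : WR m, ev a = u ∧ ‖a‖ ≤ B := by
  have hr : ∀ n, fc (fun p => ((u p : ℝ) : ℂ)) (-n)
      = (starRingEnd ℂ) (fc (fun p => ((u p : ℝ) : ℂ)) n) := by
    intro n
    unfold fc mean
    rw [← integral_conj]
    refine integral_congr_ae (Eventually.of_forall fun p => ?_)
    simp only [map_mul, Complex.conj_ofReal, neg_neg]
    rw [ch_neg, Complex.conj_conj]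
  have huc : Continuous fun p => ((u p : ℝ) : ℂ) := Complex.continuous_ofReal.comp hu
  have hpc : Per fun p => ((u p : ℝ) : ℂ) := fun a b p => by
    simp only [hp a b p]
  refine ⟨mkW m _ h.summable hr, ?_, norm_le_of_SB ?_⟩
  · funext p
    rw [ev_eq, cf_mkW', ser_fc huc hpc h.summable_norm, Complex.ofReal_re]
  · rw [cf_mkW']
    exact h

/-! ## products -/

lemma conv_real {c d : ℤ × ℤ → ℂ} (hc : ∀ n, c (-n) = (starRingEnd ℂ) (c n))
    (hd : ∀ n, d (-n) = (starRingEnd ℂ) (d n)) (n : ℤ × ℤ) :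
    conv c d (-n) = (starRingEnd ℂ) (conv c d n) := by
  unfold conv
  rw [Complex.conj_tsum, ← (Equiv.neg (ℤ × ℤ)).tsum_eq (fun k => c k * d (-n - k))]
  refine tsum_congr fun k => ?_
  rw [map_mul, ← hc, ← hd]
  congr 2
  simp only [Equiv.neg_apply]
  ring

/-- the product -/
def pr (a b : WR m) : WR m :=
  mkW m (conv (cf a) (cf b)) (SB_conv (SB_cf a) (SB_cf b)).summable
    (conv_real (cf_neg' a) (cf_neg' b))

lemma norm_pr_le (a b : WR m) : ‖pr a b‖ ≤ ‖a‖ * ‖b‖ := by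
  refine norm_le_of_SB ?_
  unfold pr
  rw [cf_mkW']
  exact SB_conv (SB_cf a) (SB_cf b)

lemma ev_pr (a b : WR m) (p : P2) : ev (pr a b) p = ev a p * ev b p := by
  rw [← Complex.ofReal_inj, Complex.ofReal_mul, ofReal_ev, ofReal_ev, ofReal_ev]
  unfold pr
  rw [cf_mkW', ser_mul (summable_norm_cf a) (summable_norm_cf b)]

/-- the product as a bilinear map -/
def prL (m : ℕ) : WR m →L[ℝ] WR m →L[ℝ] WR m :=
  LinearMap.mkContinuous₂ (LinearMap.mk₂ ℝ pr
    (fun a b c => H2 m _ _ (funext fun p => by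
      rw [ev_add, ev_pr, ev_pr, ev_pr, ev_add]; ring))
    (fun c a b => H2 m _ _ (funext fun p => by
      rw [ev_smul, ev_pr, ev_pr, ev_smul]; ring))
    (fun a b c => H2 m _ _ (funext fun p => by
      rw [ev_add, ev_pr, ev_pr, ev_pr, ev_add]; ring))
    (fun c a b => H2 m _ _ (funext fun p => by
      rw [ev_smul, ev_pr, ev_pr, ev_smul]; ring))) 1 (fun a b => by
    rw [one_mul]
    exact norm_pr_le a b)

lemma prL_apply (a b : WR m) : prL m a b = pr a b := rfl

theorem H3 : H3_statement := fun m => ⟨prL m, fun a b p => ev_pr a b p⟩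

lemma SB_single (m : ℕ) (z : ℂ) : SB m (fun n => if n = 0 then z else 0) ‖z‖ := by
  intro S
  calc ∑ n ∈ S, wt n ^ m * ‖(if n = 0 then z else 0 : ℂ)‖
      ≤ ∑ n ∈ S, (if n = (0 : ℤ × ℤ) then ‖z‖ else 0) := by
        refine Finset.sum_le_sum fun n _ => ?_
        split_ifs with h
        · subst h
          have : wt 0 = 1 := by simp [wt]
          rw [this, one_pow, one_mul]
        · simp
    _ ≤ ‖z‖ := by
        rw [Finset.sum_ite_eq']
        split_ifs
        · exact le_rfl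
        · exact norm_nonneg _

/-- constants -/
def cst (m : ℕ) (c : ℝ) : WR m :=
  mkW m (fun n => if n = 0 then (c : ℂ) else 0) (SB_single m _).summable (fun n => by
    by_cases h : n = 0
    · subst h; simp
    · simp [h])

lemma ev_cst (m : ℕ) (c : ℝ) (p : P2) : ev (cst m c) p = c := by
  rw [ev_eq]
  unfold cst
  rw [cf_mkW']
  unfold ser
  rw [tsum_eq_single 0]
  · simp [ch_zero]
  · intro n hn
    simp [hn]

lemma norm_cst_le (m : ℕ) (c : ℝ) : ‖cst m c‖ ≤ |c| := by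
  refine norm_le_of_SB ?_
  unfold cst
  rw [cf_mkW']
  have := SB_single m (c : ℂ)
  rwa [Complex.norm_real, Real.norm_eq_abs] at this

/-- constants as a linear map -/
def cstL (m : ℕ) : ℝ →L[ℝ] WR m :=
  LinearMap.mkContinuous
    { toFun := cst m
      map_add' := fun a b => H2 m _ _ (funext fun p => by
        rw [ev_add, ev_cst, ev_cst, ev_cst])
      map_smul' := fun a b => H2 m _ _ (funext fun p => by
        rw [RingHom.id_apply, ev_smul, ev_cst, ev_cst, smul_eq_mul]) } 1 (fun c => by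
    rw [one_mul, Real.norm_eq_abs]
    exact norm_cst_le m c)

theorem H3c : H3c_statement := fun m => ⟨cstL m, fun c p => ev_cst m c p⟩

/-! ## derivatives -/

lemma mult_bound {m : ℕ} {z : ℤ × ℤ → ℤ} (hz : ∀ n, |(z n : ℝ)| ≤ wt n) (n : ℤ × ℤ) :
    wt n ^ m * ‖(2 * Real.pi * Complex.I * z n : ℂ)‖ ≤ 2 * Real.pi * wt n ^ (m + 1) := by
  rw [norm_mul, norm_two_pi_I, Complex.norm_intCast, pow_succ]
  have h1 := mul_le_mul_of_nonneg_left (hz n) (wt_pow_nonneg m n)
  have h2 : (0 : ℝ) ≤ 2 * Real.pi := by positivity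
  nlinarith

lemma conj_tpi (k : ℤ) : (2 * Real.pi * Complex.I * ((-k : ℤ) : ℂ) : ℂ)
    = (starRingEnd ℂ) (2 * Real.pi * Complex.I * k) := by
  rw [map_mul, map_mul, map_mul, map_ofNat, Complex.conj_ofReal, Complex.conj_I, map_intCast]
  push_cast
  ring

/-- `∂ₛ` -/
def SW (m : ℕ) : WR (m + 1) →L[ℝ] WR m :=
  mulW (m + 1) m (fun n => 2 * Real.pi * Complex.I * n.1) (2 * Real.pi)
    (mult_bound (z := Prod.fst) fun n => by
      unfold wt; linarith [abs_nonneg (n.2 : ℝ)])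
    (fun n => conj_tpi n.1)

/-- `∂ₜ` -/
def TW' (m : ℕ) : WR (m + 1) →L[ℝ] WR m :=
  mulW (m + 1) m (fun n => 2 * Real.pi * Complex.I * n.2) (2 * Real.pi)
    (mult_bound (z := Prod.snd) fun n => by
      unfold wt; linarith [abs_nonneg (n.1 : ℝ)])
    (fun n => conj_tpi n.2)

lemma cf_SW (a : WR (m + 1)) : cf (SW m a) = dsc (cf a) := funext fun n => cf_mulW _ _ a n

lemma cf_TW (a : WR (m + 1)) : cf (TW' m a) = dtc (cf a) := funext fun n => cf_mulW _ _ a n

lemma summable_one (a : WR (m + 1)) : Summable fun n => wt n ^ 1 * ‖cf a n‖ :=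
  ((SB_cf a).of_le (by omega)).summable

lemma ds_re {g : P2 → ℂ} {p : P2} (hg : DifferentiableAt ℝ g p) :
    ds (fun q => (g q).re) p = (ds g p).re := by
  unfold ds
  have := (Complex.reCLM.hasFDerivAt.comp p hg.hasFDerivAt).fderiv
  have h2 : fderiv ℝ (fun q => (g q).re) p = Complex.reCLM.comp (fderiv ℝ g p) := this
  rw [h2]
  rfl

lemma dt_re {g : P2 → ℂ} {p : P2} (hg : DifferentiableAt ℝ g p) :
    dt (fun q => (g q).re) p = (dt g p).re := by
  unfold dt
  have := (Complex.reCLM.hasFDerivAt.comp p hg.hasFDerivAt).fderiv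
  have h2 : fderiv ℝ (fun q => (g q).re) p = Complex.reCLM.comp (fderiv ℝ g p) := this
  rw [h2]
  rfl

lemma differentiableAt_ev (a : WR (m + 1)) (p : P2) : DifferentiableAt ℝ (ev a) p := by
  have : ev a = fun p => (ser (cf a) p).re := funext (ev_eq a)
  rw [this]
  exact Complex.reCLM.differentiableAt.comp p (hasFDerivAt_ser (summable_one a) p).differentiableAt

lemma ds_ev (a : WR (m + 1)) (p : P2) : ds (ev a) p = ev (SW m a) p := by
  have : ev a = fun p => (ser (cf a) p).re := funext (ev_eq a)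
  rw [this, ds_re (hasFDerivAt_ser (summable_one a) p).differentiableAt, ds_ser (summable_one a),
    ev_eq, cf_SW]

lemma dt_ev (a : WR (m + 1)) (p : P2) : dt (ev a) p = ev (TW' m a) p := by
  have : ev a = fun p => (ser (cf a) p).re := funext (ev_eq a)
  rw [this, dt_re (hasFDerivAt_ser (summable_one a) p).differentiableAt, dt_ser (summable_one a),
    ev_eq, cf_TW]

theorem H4 : H4_statement := fun m => ⟨SW m, TW' m, fun a p => ⟨(ds_ev a p).symm, (dt_ev a p).symm⟩⟩

/-! ## inclusions -/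

/-- inclusion -/
def incl (m m' : ℕ) (h : m' ≤ m) : WR m →L[ℝ] WR m' :=
  mulW m m' (fun _ => 1) 1 (fun n => by
    rw [norm_one, mul_one, one_mul]
    exact pow_le_pow_right₀ (one_le_wt n) h) (fun n => by simp)

lemma ev_of_cf {m m' : ℕ} {a : WR m} {b : WR m'} (h : ∀ n, cf a n = cf b n) (p : P2) :
    ev a p = ev b p := by
  rw [ev_eq, ev_eq, show cf a = cf b from funext h]

lemma ev_incl {m m' : ℕ} (h : m' ≤ m) (a : WR m) (p : P2) : ev (incl m m' h a) p = ev a p := by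
  refine ev_of_cf (fun n => ?_) p
  unfold incl
  rw [cf_mulW, one_mul]

lemma finite_wt (N : ℕ) : {n : ℤ × ℤ | wt n ≤ N}.Finite := by
  refine ((Set.finite_Icc (-(N : ℤ)) N).prod (Set.finite_Icc (-(N : ℤ)) N)).subset ?_
  intro n hn
  have hn' : wt n ≤ N := hn
  unfold wt at hn'
  have h1 : |(n.1 : ℝ)| ≤ N := by linarith [abs_nonneg (n.2 : ℝ)]
  have h2 : |(n.2 : ℝ)| ≤ N := by linarith [abs_nonneg (n.1 : ℝ)]
  rw [abs_le] at h1 h2
  exact ⟨⟨by exact_mod_cast h1.1, by exact_mod_cast h1.2⟩,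
    ⟨by exact_mod_cast h2.1, by exact_mod_cast h2.2⟩⟩

/-- coefficients in a finite set -/
def coefL (m : ℕ) (F : Finset (ℤ × ℤ)) : WR m →L[ℝ] (F → ℂ) := LinearMap.mkContinuous
  { toFun := fun a n => cf a n.1
    map_add' := fun a b => by
      funext n
      exact cf_add a b n.1
    map_smul' := fun c a => by
      funext n
      simp only [RingHom.id_apply, Pi.smul_apply, Complex.real_smul]
      exact cf_smul c a n.1 } 1 (fun a => by
    rw [one_mul]
    refine (pi_norm_le_iff_of_nonneg (norm_nonneg a)).2 fun n => ?_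
    have h1 := SB_cf a {n.1}
    rw [Finset.sum_singleton] at h1
    have h2 : (1 : ℝ) ≤ wt n.1 ^ m := one_le_pow₀ (one_le_wt _)
    have h3 := norm_nonneg (cf a n.1)
    change ‖cf a n.1‖ ≤ ‖a‖
    nlinarith)

open Classical in
/-- extension by zero -/
def extz {F : Finset (ℤ × ℤ)} (z : F → ℂ) (n : ℤ × ℤ) : ℂ := if h : n ∈ F then z ⟨n, h⟩ else 0

lemma extz_add {F : Finset (ℤ × ℤ)} (z w : F → ℂ) (n : ℤ × ℤ) :
    extz (z + w) n = extz z n + extz w n := by
  unfold extz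
  split_ifs <;> simp

lemma extz_smul {F : Finset (ℤ × ℤ)} (c : ℝ) (z : F → ℂ) (n : ℤ × ℤ) :
    extz (c • z) n = c * extz z n := by
  unfold extz
  split_ifs <;> simp

/-- symmetrised extension -/
def symz {F : Finset (ℤ × ℤ)} (z : F → ℂ) (n : ℤ × ℤ) : ℂ :=
  (extz z n + (starRingEnd ℂ) (extz z (-n))) / 2

lemma symz_real {F : Finset (ℤ × ℤ)} (z : F → ℂ) (n : ℤ × ℤ) :
    symz z (-n) = (starRingEnd ℂ) (symz z n) := by
  unfold symz
  rw [neg_neg, map_div₀, map_add, Complex.conj_conj, map_ofNat]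
  ring

lemma summable_symz (m : ℕ) {F : Finset (ℤ × ℤ)} (z : F → ℂ) :
    Summable fun n => wt n ^ m * ‖symz z n‖ := by
  classical
  refine summable_of_ne_finset_zero (s := F ∪ F.image (fun n => -n)) fun n hn => ?_
  rw [Finset.mem_union, not_or] at hn
  have h1 : extz z n = 0 := by
    unfold extz
    rw [dif_neg hn.1]
  have h2 : extz z (-n) = 0 := by
    unfold extz
    rw [dif_neg]
    intro h
    apply hn.2
    rw [Finset.mem_image]
    exact ⟨-n, h, neg_neg n⟩
  unfold symz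
  rw [h1, h2]
  simp

/-- trigonometric polynomials -/
def polyL (m : ℕ) (F : Finset (ℤ × ℤ)) : (F → ℂ) →ₗ[ℝ] WR m where
  toFun z := mkW m (symz z) (summable_symz m z) (symz_real z)
  map_add' z w := ext_cf fun n => by
    rw [cf_add, cf_mkW, cf_mkW, cf_mkW]
    unfold symz
    rw [extz_add, extz_add, map_add]
    ring
  map_smul' c z := ext_cf fun n => by
    rw [RingHom.id_apply, cf_smul, cf_mkW, cf_mkW]
    unfold symz
    rw [extz_smul, extz_smul, map_mul, Complex.conj_ofReal]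
    ring

theorem isCompactOperator_incl (m : ℕ) : IsCompactOperator (incl (m + 1) m (Nat.le_succ m)) := by
  classical
  let F : ℕ → Finset (ℤ × ℤ) := fun N => (finite_wt (N + 1)).toFinset
  let Tr : ℕ → (WR (m + 1) →L[ℝ] WR m) := fun N =>
    (LinearMap.toContinuousLinearMap (polyL m (F N))).comp (coefL (m + 1) (F N))
  have hcomp : ∀ N, IsCompactOperator (Tr N) := by
    intro N
    have h1 : IsCompactOperator (coefL (m + 1) (F N)) :=
      isCompactOperator_of_locallyCompactSpace_dom _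
    exact h1.clm_comp (LinearMap.toContinuousLinearMap (polyL m (F N)))
  have hcf : ∀ (N : ℕ) (a : WR (m + 1)) n,
      cf (Tr N a) n = if wt n ≤ ((N + 1 : ℕ) : ℝ) then cf a n else 0 := by
    intro N a n
    change cf (mkW m (symz (coefL (m + 1) (F N) a)) (summable_symz m _) (symz_real _)) n = _
    rw [cf_mkW]
    have hm : ∀ k : ℤ × ℤ, extz (coefL (m + 1) (F N) a) k
        = if wt k ≤ ((N + 1 : ℕ) : ℝ) then cf a k else 0 := by
      intro k
      unfold extz
      by_cases h : wt k ≤ ((N + 1 : ℕ) : ℝ)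
      · rw [dif_pos ((finite_wt (N + 1)).mem_toFinset.2 h), if_pos h]
        rfl
      · rw [dif_neg (fun h' => h ((finite_wt (N + 1)).mem_toFinset.1 h')), if_neg h]
    unfold symz
    rw [hm, hm, wt_neg]
    split_ifs
    · rw [cf_neg', Complex.conj_conj]
      ring
    · simp
  have hlim : Tendsto Tr atTop (𝓝 (incl (m + 1) m (Nat.le_succ m))) := by
    rw [tendsto_iff_norm_sub_tendsto_zero]
    refine squeeze_zero (fun N => norm_nonneg _) (g := fun N : ℕ => 1 / ((N : ℝ) + 1)) (fun N => ?_)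
      tendsto_one_div_add_atTop_nhds_zero_nat
    refine ContinuousLinearMap.opNorm_le_bound _ (by positivity) fun a => ?_
    refine norm_le_of_SB ?_
    intro S
    have h1 : ∀ n ∈ S, wt n ^ m * ‖cf ((Tr N - incl (m + 1) m (Nat.le_succ m)) a) n‖
        ≤ 1 / ((N : ℝ) + 1) * (wt n ^ (m + 1) * ‖cf a n‖) := by
      intro n _
      have h2 : cf ((Tr N - incl (m + 1) m (Nat.le_succ m)) a) n
          = (if wt n ≤ ((N + 1 : ℕ) : ℝ) then cf a n else 0) - cf a n := by
        change cf (Tr N a - incl (m + 1) m (Nat.le_succ m) a) n = _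
        rw [cf_sub, hcf]
        unfold incl
        rw [cf_mulW, one_mul]
      rw [h2]
      have hw := wt_pow_nonneg m n
      have hw' := wt_pos n
      split_ifs with h
      · rw [sub_self, norm_zero, mul_zero]
        positivity
      · rw [zero_sub, norm_neg, pow_succ]
        push Not at h
        push_cast at h
        have hN' : (0 : ℝ) < (N : ℝ) + 1 := by positivity
        rw [div_mul_eq_mul_div, one_mul, le_div_iff₀ hN']
        have h3 : 0 ≤ wt n ^ m * ‖cf a n‖ := by positivity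
        nlinarith
    refine (Finset.sum_le_sum h1).trans ?_
    rw [← Finset.mul_sum]
    exact mul_le_mul_of_nonneg_left (SB_cf a S) (by positivity)
  exact isCompactOperator_of_tendsto hlim (Eventually.of_forall hcomp)

theorem H5 : H5_statement := fun m =>
  ⟨incl (m + 1) m (Nat.le_succ m), isCompactOperator_incl m, fun a p => ev_incl _ a p⟩

/-! ## mean, smooth functions -/

theorem H9 : H9_statement := by
  intro m
  refine ⟨LinearMap.mkContinuous
    { toFun := fun a => (cf a 0).re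
      map_add' := fun a b => by rw [cf_add, Complex.add_re]
      map_smul' := fun c a => by
        rw [cf_smul, RingHom.id_apply, Complex.re_ofReal_mul, smul_eq_mul] } 1 (fun a => ?_), ?_⟩
  · have h1 := SB_cf a {0}
    rw [Finset.sum_singleton] at h1
    have : wt 0 = 1 := by simp [wt]
    rw [this, one_pow, one_mul] at h1
    rw [one_mul]
    exact (Complex.abs_re_le_norm _).trans h1
  · intro a
    change (cf a 0).re = mean (ev a)
    rw [← fc_ev a]
    unfold fc mean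
    have h1 : ∀ p, ((ev a p : ℝ) : ℂ) * ch (-0) p = ((ev a p : ℝ) : ℂ) := fun p => by
      rw [neg_zero, ch_zero, mul_one]
    simp only [h1]
    rw [integral_complex_ofReal, Complex.ofReal_re]

lemma norm_ds_le {E : Type*} [NormedAddCommGroup E] [NormedSpace ℝ E] {u : P2 → E} {j : ℕ}
    (hu : ContDiff ℝ ∞ u) (p : P2) : ‖iteratedFDeriv ℝ j (ds u) p‖ ≤ ‖iteratedFDeriv ℝ (j + 1) u p‖ := by
  have h1 : ds u = (ContinuousLinearMap.apply ℝ E ((1, 0) : P2)) ∘ (fderiv ℝ u) := rfl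
  have h2 : ContDiff ℝ ∞ (fderiv ℝ u) := hu.fderiv_right (by norm_cast)
  rw [h1]
  have h3 := ContinuousLinearMap.norm_iteratedFDeriv_comp_left
    (ContinuousLinearMap.apply ℝ E ((1, 0) : P2)) (h2.contDiffAt (x := p)) (N := ∞) (n := j)
    (by norm_cast; exact le_top)
  rw [norm_iteratedFDeriv_fderiv] at h3
  refine h3.trans ?_
  have h4 : ‖ContinuousLinearMap.apply ℝ E ((1, 0) : P2)‖ ≤ 1 := by
    refine ContinuousLinearMap.opNorm_le_bound _ zero_le_one fun L => ?_
    rw [ContinuousLinearMap.apply_apply, one_mul]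
    refine (L.le_opNorm _).trans ?_
    have : ‖((1, 0) : P2)‖ = 1 := by simp [Prod.norm_def]
    rw [this, mul_one]
  exact mul_le_of_le_one_left (norm_nonneg _) h4

lemma norm_dt_le {E : Type*} [NormedAddCommGroup E] [NormedSpace ℝ E] {u : P2 → E} {j : ℕ}
    (hu : ContDiff ℝ ∞ u) (p : P2) : ‖iteratedFDeriv ℝ j (dt u) p‖ ≤ ‖iteratedFDeriv ℝ (j + 1) u p‖ := by
  have h1 : dt u = (ContinuousLinearMap.apply ℝ E ((0, 1) : P2)) ∘ (fderiv ℝ u) := rfl
  have h2 : ContDiff ℝ ∞ (fderiv ℝ u) := hu.fderiv_right (by norm_cast)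
  rw [h1]
  have h3 := ContinuousLinearMap.norm_iteratedFDeriv_comp_left
    (ContinuousLinearMap.apply ℝ E ((0, 1) : P2)) (h2.contDiffAt (x := p)) (N := ∞) (n := j)
    (by norm_cast; exact le_top)
  rw [norm_iteratedFDeriv_fderiv] at h3
  refine h3.trans ?_
  have h4 : ‖ContinuousLinearMap.apply ℝ E ((0, 1) : P2)‖ ≤ 1 := by
    refine ContinuousLinearMap.opNorm_le_bound _ zero_le_one fun L => ?_
    rw [ContinuousLinearMap.apply_apply, one_mul]
    refine (L.le_opNorm _).trans ?_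
    have : ‖((0, 1) : P2)‖ = 1 := by simp [Prod.norm_def]
    rw [this, mul_one]
  exact mul_le_of_le_one_left (norm_nonneg _) h4

lemma smooth_ds {E : Type*} [NormedAddCommGroup E] [NormedSpace ℝ E] {u : P2 → E}
    (hu : ContDiff ℝ ∞ u) : ContDiff ℝ ∞ (ds u) := contDiff_ds (n := ⊤) hu

lemma smooth_dt {E : Type*} [NormedAddCommGroup E] [NormedSpace ℝ E] {u : P2 → E}
    (hu : ContDiff ℝ ∞ u) : ContDiff ℝ ∞ (dt u) := contDiff_dt (n := ⊤) hu

/-- smooth periodic functions: quantitative bound -/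
lemma SB_of_smooth (m : ℕ) : ∃ C : ℝ, 0 ≤ C ∧ ∀ u : P2 → ℂ, ContDiff ℝ ∞ u → Per u → ∀ B : ℝ,
    (∀ j ≤ m + 2, ∀ p, ‖iteratedFDeriv ℝ j u p‖ ≤ B) → SB m (fc u) (C * B) := by
  induction m with
  | zero =>
    refine ⟨C0, C0_nonneg, fun u hu hp B hB => ?_⟩
    refine SB_zero_of_C2 (hu.of_le (by norm_cast)) hp (fun p => ?_) (fun p => ?_) (fun p => ?_)
    · have := hB 0 (by norm_num) p
      rwa [norm_iteratedFDeriv_zero] at this
    · have h1 := norm_ds_le (j := 0) (smooth_ds hu) p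
      have h2 := norm_ds_le (j := 1) hu p
      rw [norm_iteratedFDeriv_zero] at h1
      exact (h1.trans h2).trans (hB 2 (by norm_num) p)
    · have h1 := norm_dt_le (j := 0) (smooth_dt hu) p
      have h2 := norm_dt_le (j := 1) hu p
      rw [norm_iteratedFDeriv_zero] at h1
      exact (h1.trans h2).trans (hB 2 (by norm_num) p)
  | succ m ih =>
    obtain ⟨C, hC, h⟩ := ih
    refine ⟨C + C + C, by positivity, fun u hu hp B hB => ?_⟩
    have h0 := h u hu hp B (fun j hj p => hB j (by omega) p)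
    have h1 := h (ds u) (smooth_ds hu) (per_ds hp) B
      (fun j hj p => (norm_ds_le hu p).trans (hB (j + 1) (by omega) p))
    have h2 := h (dt u) (smooth_dt hu) (per_dt hp) B
      (fun j hj p => (norm_dt_le hu p).trans (hB (j + 1) (by omega) p))
    have h3 := SB_succ (hu.of_le (by norm_cast)) hp h0 h1 h2
    exact h3.mono (by ring_nf; exact le_rfl)

lemma smooth_ofReal {u : P2 → ℝ} (hu : ContDiff ℝ ∞ u) : ContDiff ℝ ∞ fun p => ((u p : ℝ) : ℂ) :=
  Complex.ofRealCLM.contDiff.comp hu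

lemma norm_ofReal_deriv {u : P2 → ℝ} (hu : ContDiff ℝ ∞ u) (j : ℕ) (p : P2) :
    ‖iteratedFDeriv ℝ j (fun p => ((u p : ℝ) : ℂ)) p‖ ≤ ‖iteratedFDeriv ℝ j u p‖ := by
  have h3 := ContinuousLinearMap.norm_iteratedFDeriv_comp_left
    Complex.ofRealCLM (hu.contDiffAt (x := p)) (N := ∞) (n := j) (by norm_cast; exact le_top)
  refine h3.trans ?_
  exact mul_le_of_le_one_left (norm_nonneg _) (by simp)

theorem H1 : H1_statement := by
  intro m g hg hp
  obtain ⟨C, hC, h⟩ := SB_of_smooth m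
  have hgc := smooth_ofReal hg
  have hpc : Per fun p => ((g p : ℝ) : ℂ) := fun k l p => by simp only [hp k l p]
  -- bounds for the derivatives
  have hb : ∀ j : ℕ, ∃ B : ℝ, ∀ p, ‖iteratedFDeriv ℝ j (fun p => ((g p : ℝ) : ℂ)) p‖ ≤ B := by
    intro j
    have hcont : Continuous fun p : P2 => ‖iteratedFDeriv ℝ j (fun p => ((g p : ℝ) : ℂ)) p‖ :=
      (hgc.continuous_iteratedFDeriv (by norm_cast; exact le_top)).norm
    obtain ⟨q, _, hq⟩ := isCompact_sq.exists_isMaxOn ⟨0, by simp⟩ hcont.continuousOn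
    refine ⟨‖iteratedFDeriv ℝ j (fun p => ((g p : ℝ) : ℂ)) q‖, fun p => ?_⟩
    -- reduce to the unit square
    have hper : ∀ (k l : ℤ), iteratedFDeriv ℝ j (fun p => ((g p : ℝ) : ℂ)) (p.1 + k, p.2 + l)
        = iteratedFDeriv ℝ j (fun p => ((g p : ℝ) : ℂ)) p := by
      intro k l
      have h1 : (fun p => ((g p : ℝ) : ℂ))
          = fun q : P2 => (fun p => ((g p : ℝ) : ℂ)) (q + ((k : ℝ), (l : ℝ))) := by
        funext q
        exact (hpc k l q).symm
      have h2 := iteratedFDeriv_comp_add_right (𝕜 := ℝ) (f := fun p => ((g p : ℝ) : ℂ)) j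
        ((k : ℝ), (l : ℝ)) p
      rw [← h1] at h2
      rw [h2]
      rfl
    have h3 := hper (-⌊p.1⌋) (-⌊p.2⌋)
    rw [← h3]
    refine hq ?_
    refine ⟨⟨?_, ?_⟩, ⟨?_, ?_⟩⟩
    · push_cast
      have := Int.floor_le p.1
      change (0 : ℝ) ≤ p.1 + -(⌊p.1⌋ : ℝ)
      linarith
    · push_cast
      have := Int.floor_le p.2
      change (0 : ℝ) ≤ p.2 + -(⌊p.2⌋ : ℝ)
      linarith
    · push_cast
      have := Int.lt_floor_add_one p.1
      change p.1 + -(⌊p.1⌋ : ℝ) ≤ 1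
      linarith
    · push_cast
      have := Int.lt_floor_add_one p.2
      change p.2 + -(⌊p.2⌋ : ℝ) ≤ 1
      linarith
  choose B hB using hb
  have hBn : ∀ j, 0 ≤ B j := fun j => (norm_nonneg _).trans (hB j 0)
  have h1 := h _ hgc hpc (∑ j ∈ Finset.range (m + 3), B j) (fun j hj p => (hB j p).trans
    (Finset.single_le_sum (f := B) (fun i _ => hBn i) (Finset.mem_range.2 (by omega))))
  obtain ⟨a, ha, _⟩ := exists_of_SB hg.continuous hp h1
  exact ⟨a, ha⟩

theorem H12 : H12_statement := by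
  intro m
  obtain ⟨C, hC, h⟩ := SB_of_smooth m
  refine ⟨C, fun a ha B hB => ?_⟩
  have h1 := h (fun p => ((ev a p : ℝ) : ℂ)) (smooth_ofReal ha) (fun k l p => by
    simp only [per_ev a k l p]) B (fun j hj p => (norm_ofReal_deriv ha j p).trans
      (hB j (by omega) p))
  rw [fc_ev] at h1
  exact norm_le_of_SB h1

end Vale.Agent.P247.H720
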